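import Vale.Agent.P153.CLT.Mart
import Mathlib.MeasureTheory.Function.ConditionalExpectation.CondJensen
import Mathlib.Analysis.SpecialFunctions.Trigonometric.Bounds

/-!
# Conditional Newman inequality

For a family of bounded random variables which is positively associated given a sigma-algebra,
the conditional characteristic function of a sum is close to the product of the conditional
characteristic functions of block sums; the error is the sum of the conditional covariances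
between different blocks.
-/

namespace Vale.Agent.P153.CLT

open MeasureTheory Filter Finset
open scoped Topology

variable {Ω : Type*} {mΩ : MeasurableSpace Ω} {μ : Measure Ω}

/-- Conditional positive association (continuous monotone test functions). -/
def CondAssoc (μ : Measure[mΩ] Ω) (m : MeasurableSpace Ω) {ι : Type*} (r : ι → Ω → ℝ) : Prop :=
  ∀ f g : (ι → ℝ) → ℝ, Continuous f → Continuous g → Monotone f → Monotone g →
    (fun ω => (μ[fun ω => f (fun i => r i ω) | m]) ω * (μ[fun ω => g (fun i => r i ω) | m]) ω)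
      ≤ᵐ[μ] μ[fun ω => f (fun i => r i ω) * g (fun i => r i ω) | m]

/-- Conditional covariance. -/
noncomputable def ccov (μ : Measure[mΩ] Ω) (m : MeasurableSpace Ω) (X Y : Ω → ℝ) : Ω → ℝ :=
  fun ω => (μ[fun ω => X ω * Y ω | m]) ω - (μ[X | m]) ω * (μ[Y | m]) ω

/-- Bounded measurable real function. -/
def BM (X : Ω → ℝ) : Prop := Measurable[mΩ] X ∧ ∃ C, ∀ ω, |X ω| ≤ C

lemma BM.add {X Y : Ω → ℝ} (hX : BM (mΩ := mΩ) X) (hY : BM (mΩ := mΩ) Y) :
    BM (mΩ := mΩ) (fun ω => X ω + Y ω) := by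
  obtain ⟨h1, C, hC⟩ := hX
  obtain ⟨h2, D, hD⟩ := hY
  exact ⟨h1.add h2, C + D, fun ω => (abs_add_le _ _).trans (add_le_add (hC ω) (hD ω))⟩

lemma BM.mul {X Y : Ω → ℝ} (hX : BM (mΩ := mΩ) X) (hY : BM (mΩ := mΩ) Y) :
    BM (mΩ := mΩ) (fun ω => X ω * Y ω) := by
  obtain ⟨h1, C, hC⟩ := hX
  obtain ⟨h2, D, hD⟩ := hY
  refine ⟨h1.mul h2, C * D, fun ω => ?_⟩
  rw [abs_mul]
  exact mul_le_mul (hC ω) (hD ω) (abs_nonneg _) ((abs_nonneg _).trans (hC ω))

lemma BM.const (c : ℝ) : BM (mΩ := mΩ) (fun _ : Ω => c) :=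
  ⟨measurable_const, |c|, fun _ => le_rfl⟩

lemma BM.sum {ι : Type*} (s : Finset ι) {X : ι → Ω → ℝ} (hX : ∀ i ∈ s, BM (mΩ := mΩ) (X i)) :
    BM (mΩ := mΩ) (fun ω => ∑ i ∈ s, X i ω) := by
  classical
  induction s using Finset.induction_on with
  | empty => simpa using BM.const (mΩ := mΩ) (Ω := Ω) 0
  | insert a s ha ih =>
    simp only [Finset.sum_insert ha]
    exact (hX a (mem_insert_self _ _)).add (ih fun i hi => hX i (mem_insert_of_mem hi))

lemma BM.integrable [IsFiniteMeasure μ] {X : Ω → ℝ} (hX : BM (mΩ := mΩ) X) : Integrable X μ := by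
  obtain ⟨h1, C, hC⟩ := hX
  exact integrable_of_norm_le h1.aestronglyMeasurable C hC

lemma BM.comp_cont {X : Ω → ℝ} (hX : BM (mΩ := mΩ) X) {u : ℝ → ℝ} (hu : Continuous u) {C : ℝ}
    (hC : ∀ x, |u x| ≤ C) : BM (mΩ := mΩ) (fun ω => u (X ω)) :=
  ⟨hu.measurable.comp hX.1, C, fun _ => hC _⟩

/-- Expansion of the conditional covariance of `P + σ U` and `Q + τ W`. -/
lemma ccov_expand [IsProbabilityMeasure μ] (m : MeasurableSpace Ω) {P U Q W : Ω → ℝ}
    (hP : BM (mΩ := mΩ) P) (hU : BM (mΩ := mΩ) U) (hQ : BM (mΩ := mΩ) Q) (hW : BM (mΩ := mΩ) W)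
    (σ τ : ℝ) :
    ccov μ m (fun ω => P ω + σ * U ω) (fun ω => Q ω + τ * W ω) =ᵐ[μ] fun ω =>
      ccov μ m P Q ω + τ * ccov μ m P W ω + σ * ccov μ m U Q ω + σ * τ * ccov μ m U W ω := by
  have lin1 : ∀ (X Z : Ω → ℝ) (c : ℝ), BM (mΩ := mΩ) X → BM (mΩ := mΩ) Z →
      μ[fun ω => X ω + c * Z ω | m] =ᵐ[μ] fun ω => (μ[X | m]) ω + c * (μ[Z | m]) ω := by
    intro X Z c hX hZ
    have h1 : (fun ω => X ω + c * Z ω) = X + c • Z := by
      funext ω
      simp
    rw [h1]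
    filter_upwards [condExp_add (hX.integrable (μ := μ)) ((hZ.integrable (μ := μ)).smul c) m,
      condExp_smul (μ := μ) c Z m] with ω h2 h3
    rw [h2, Pi.add_apply, h3, Pi.smul_apply, smul_eq_mul]
  have hPQ := hP.mul hQ
  have hPW := hP.mul hW
  have hUQ := hU.mul hQ
  have hUW := hU.mul hW
  have e : (fun ω => (P ω + σ * U ω) * (Q ω + τ * W ω)) = fun ω =>
      ((fun ω => (fun ω => P ω * Q ω) ω + τ * (fun ω => P ω * W ω) ω) ω +
        σ * (fun ω => (fun ω => U ω * Q ω) ω + τ * (fun ω => U ω * W ω) ω) ω) := by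
    funext ω
    ring
  have b1 : BM (mΩ := mΩ) (fun ω => P ω * Q ω + τ * (P ω * W ω)) :=
    hPQ.add ((BM.const τ).mul hPW)
  have b2 : BM (mΩ := mΩ) (fun ω => U ω * Q ω + τ * (U ω * W ω)) :=
    hUQ.add ((BM.const τ).mul hUW)
  have l1 := lin1 P U σ hP hU
  have l2 := lin1 Q W τ hQ hW
  have l3 := lin1 _ _ σ b1 b2
  have l4 := lin1 _ _ τ hPQ hPW
  have l5 := lin1 _ _ τ hUQ hUW
  have l3' : μ[fun ω => (P ω + σ * U ω) * (Q ω + τ * W ω) | m] =ᵐ[μ] fun ω =>
      (μ[fun ω => P ω * Q ω + τ * (P ω * W ω) | m]) ω +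
        σ * (μ[fun ω => U ω * Q ω + τ * (U ω * W ω) | m]) ω := by
    rw [e]
    exact l3
  filter_upwards [l1, l2, l3', l4, l5] with ω h1 h2 h3 h4 h5
  simp only [ccov]
  rw [h1, h2, h3, h4, h5]
  ring

variable {ι : Type*}

lemma monotone_lin_add {s : Finset ι} {g : ι → ℝ} {u : ℝ → ℝ} (hu : LipschitzWith 1 u) {σ : ℝ}
    (hσ : |σ| ≤ 1) :
    Monotone (fun x : ι → ℝ => ∑ i ∈ s, |g i| * x i + σ * u (∑ i ∈ s, g i * x i)) := by
  intro x y hxy
  simp only
  have h1 : |u (∑ i ∈ s, g i * y i) - u (∑ i ∈ s, g i * x i)| ≤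
      ∑ i ∈ s, |g i| * y i - ∑ i ∈ s, |g i| * x i := by
    have := hu.dist_le_mul (∑ i ∈ s, g i * y i) (∑ i ∈ s, g i * x i)
    rw [Real.dist_eq, Real.dist_eq] at this
    refine this.trans ?_
    rw [← Finset.sum_sub_distrib, ← Finset.sum_sub_distrib]
    simp only [NNReal.coe_one, one_mul]
    refine (Finset.abs_sum_le_sum_abs _ _).trans (Finset.sum_le_sum fun i _ => ?_)
    rw [← mul_sub, abs_mul, abs_of_nonneg (sub_nonneg.2 (hxy i)), mul_sub]
  have h2 : |σ * (u (∑ i ∈ s, g i * y i) - u (∑ i ∈ s, g i * x i))| ≤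
      ∑ i ∈ s, |g i| * y i - ∑ i ∈ s, |g i| * x i := by
    rw [abs_mul]
    calc _ ≤ 1 * |u (∑ i ∈ s, g i * y i) - u (∑ i ∈ s, g i * x i)| :=
          mul_le_mul_of_nonneg_right hσ (abs_nonneg _)
      _ ≤ _ := by rw [one_mul]; exact h1
  have h3 := (abs_le.1 h2).1
  rw [mul_sub] at h3
  linarith

/-- Absolute linear statistic. -/
def aL (g : ι → ℝ) (r : ι → Ω → ℝ) (s : Finset ι) (ω : Ω) : ℝ := ∑ i ∈ s, |g i| * r i ω

/-- Linear statistic. -/
def lL (g : ι → ℝ) (r : ι → Ω → ℝ) (s : Finset ι) (ω : Ω) : ℝ := ∑ i ∈ s, g i * r i ω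

lemma bm_aL {g : ι → ℝ} {r : ι → Ω → ℝ} (hr : ∀ i, BM (mΩ := mΩ) (r i)) (s : Finset ι) :
    BM (mΩ := mΩ) (aL g r s) := BM.sum s fun i _ => (BM.const _).mul (hr i)

lemma bm_lL {g : ι → ℝ} {r : ι → Ω → ℝ} (hr : ∀ i, BM (mΩ := mΩ) (r i)) (s : Finset ι) :
    BM (mΩ := mΩ) (lL g r s) := BM.sum s fun i _ => (BM.const _).mul (hr i)

/-- Newman's inequality for Lipschitz functions of linear statistics. -/
lemma abs_ccov_le [Fintype ι] [IsProbabilityMeasure μ] (m : MeasurableSpace Ω) {g : ι → ℝ} {r : ι → Ω → ℝ}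
    (hr : ∀ i, BM (mΩ := mΩ) (r i)) (hA : CondAssoc μ m r) (s t : Finset ι) {u v : ℝ → ℝ}
    (hu : LipschitzWith 1 u) (hv : LipschitzWith 1 v) (hub : ∀ x, |u x| ≤ 1)
    (hvb : ∀ x, |v x| ≤ 1) :
    ∀ᵐ ω ∂μ, |ccov μ m (fun ω => u (lL g r s ω)) (fun ω => v (lL g r t ω)) ω| ≤
      ccov μ m (aL g r s) (aL g r t) ω := by
  have hP := bm_aL (mΩ := mΩ) (g := g) hr s
  have hQ := bm_aL (mΩ := mΩ) (g := g) hr t
  have hU := (bm_lL (mΩ := mΩ) (g := g) hr s).comp_cont hu.continuous hub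
  have hW := (bm_lL (mΩ := mΩ) (g := g) hr t).comp_cont hv.continuous hvb
  have pos : ∀ σ τ : ℝ, |σ| ≤ 1 → |τ| ≤ 1 → ∀ᵐ ω ∂μ, 0 ≤
      ccov μ m (fun ω => aL g r s ω + σ * u (lL g r s ω))
        (fun ω => aL g r t ω + τ * v (lL g r t ω)) ω := by
    intro σ τ hσ hτ
    have hc1 : Continuous (fun x : ι → ℝ =>
        ∑ i ∈ s, |g i| * x i + σ * u (∑ i ∈ s, g i * x i)) := by
      have := hu.continuous
      fun_prop
    have hc2 : Continuous (fun x : ι → ℝ =>
        ∑ i ∈ t, |g i| * x i + τ * v (∑ i ∈ t, g i * x i)) := by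
      have := hv.continuous
      fun_prop
    have := hA _ _ hc1 hc2 (monotone_lin_add hu hσ) (monotone_lin_add hv hτ)
    filter_upwards [this] with ω h
    simp only [ccov]
    exact sub_nonneg.2 h
  have p1 := pos 1 1 (by norm_num) (by norm_num)
  have p2 := pos (-1) (-1) (by norm_num) (by norm_num)
  have p3 := pos 1 (-1) (by norm_num) (by norm_num)
  have p4 := pos (-1) 1 (by norm_num) (by norm_num)
  have q1 := ccov_expand (μ := μ) m hP hU hQ hW 1 1
  have q2 := ccov_expand (μ := μ) m hP hU hQ hW (-1) (-1)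
  have q3 := ccov_expand (μ := μ) m hP hU hQ hW 1 (-1)
  have q4 := ccov_expand (μ := μ) m hP hU hQ hW (-1) 1
  filter_upwards [p1, p2, p3, p4, q1, q2, q3, q4] with ω a1 a2 a3 a4 b1 b2 b3 b4
  rw [b1] at a1
  rw [b2] at a2
  rw [b3] at a3
  rw [b4] at a4
  rw [abs_le]
  constructor <;> linarith

lemma condExp_re (m : MeasurableSpace Ω) {f : Ω → ℂ} (hf : Integrable f μ) :
    ∀ᵐ ω ∂μ, ((μ[f | m]) ω).re = (μ[fun ω => (f ω).re | m]) ω := by
  filter_upwards [Complex.reCLM.comp_condExp_comm (m := m) hf] with ω h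
  exact h

lemma condExp_im (m : MeasurableSpace Ω) {f : Ω → ℂ} (hf : Integrable f μ) :
    ∀ᵐ ω ∂μ, ((μ[f | m]) ω).im = (μ[fun ω => (f ω).im | m]) ω := by
  filter_upwards [Complex.imCLM.comp_condExp_comm (m := m) hf] with ω h
  exact h

lemma ei_re (x : ℝ) : (ei x).re = Real.cos x := by
  unfold ei
  rw [mul_comm, Complex.exp_ofReal_mul_I_re]

lemma ei_im (x : ℝ) : (ei x).im = Real.sin x := by
  unfold ei
  rw [mul_comm, Complex.exp_ofReal_mul_I_im]

lemma integrable_ei [IsProbabilityMeasure μ] {X : Ω → ℝ} (hX : Measurable[mΩ] X) :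
    Integrable (fun ω => ei (X ω)) μ :=
  integrable_of_norm_le (measurable_ei.comp hX).aestronglyMeasurable 1 fun _ => (norm_ei _).le

lemma norm_condExp_le_one [IsProbabilityMeasure μ] {m : MeasurableSpace Ω} (hm : m ≤ mΩ)
    {f : Ω → ℂ} (hf : ∀ ω, ‖f ω‖ ≤ 1) (hfi : Integrable f μ) :
    ∀ᵐ ω ∂μ, ‖(μ[f | m]) ω‖ ≤ 1 := by
  have h1 := norm_condExp_le (μ := μ) (m := m) f
  have h2 : μ[fun ω => ‖f ω‖ | m] ≤ᵐ[μ] μ[fun _ => (1 : ℝ) | m] :=
    condExp_mono hfi.norm (integrable_const 1) (ae_of_all _ hf)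
  rw [condExp_const hm] at h2
  filter_upwards [h1, h2] with ω a b
  exact a.trans b

/-- Complex form of Newman's inequality for two disjoint blocks. -/
lemma norm_ccov_ei_le [Fintype ι] [IsProbabilityMeasure μ] (m : MeasurableSpace Ω) {g : ι → ℝ}
    {r : ι → Ω → ℝ} (hr : ∀ i, BM (mΩ := mΩ) (r i)) (hA : CondAssoc μ m r) (s t : Finset ι) :
    ∀ᵐ ω ∂μ, ‖(μ[fun ω => ei (lL g r s ω) * ei (lL g r t ω) | m]) ω -
      (μ[fun ω => ei (lL g r s ω) | m]) ω * (μ[fun ω => ei (lL g r t ω) | m]) ω‖ ≤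
      4 * ccov μ m (aL g r s) (aL g r t) ω := by
  have hLs := bm_lL (mΩ := mΩ) (g := g) hr s
  have hLt := bm_lL (mΩ := mΩ) (g := g) hr t
  have hc1 : ∀ x, |Real.cos x| ≤ 1 := Real.abs_cos_le_one
  have hs1 : ∀ x, |Real.sin x| ≤ 1 := Real.abs_sin_le_one
  have k1 := abs_ccov_le (μ := μ) (g := g) m hr hA s t Real.lipschitzWith_cos
    Real.lipschitzWith_cos hc1 hc1
  have k2 := abs_ccov_le (μ := μ) (g := g) m hr hA s t Real.lipschitzWith_sin
    Real.lipschitzWith_sin hs1 hs1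
  have k3 := abs_ccov_le (μ := μ) (g := g) m hr hA s t Real.lipschitzWith_cos
    Real.lipschitzWith_sin hc1 hs1
  have k4 := abs_ccov_le (μ := μ) (g := g) m hr hA s t Real.lipschitzWith_sin
    Real.lipschitzWith_cos hs1 hc1
  have i1 : Integrable (fun ω => ei (lL g r s ω)) μ := integrable_ei hLs.1
  have i2 : Integrable (fun ω => ei (lL g r t ω)) μ := integrable_ei hLt.1
  have i3 : Integrable (fun ω => ei (lL g r s ω) * ei (lL g r t ω)) μ := by
    have : (fun ω => ei (lL g r s ω) * ei (lL g r t ω)) =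
        fun ω => ei (lL g r s ω + lL g r t ω) := by
      funext ω
      rw [ei_add]
    rw [this]
    exact integrable_ei (hLs.1.add hLt.1)
  have cc := (hLs.comp_cont Real.continuous_cos hc1).mul (hLt.comp_cont Real.continuous_cos hc1)
  have ss := (hLs.comp_cont Real.continuous_sin hs1).mul (hLt.comp_cont Real.continuous_sin hs1)
  have cs := (hLs.comp_cont Real.continuous_cos hc1).mul (hLt.comp_cont Real.continuous_sin hs1)
  have sc := (hLs.comp_cont Real.continuous_sin hs1).mul (hLt.comp_cont Real.continuous_cos hc1)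
  have r3 := condExp_re m i3
  have m3 := condExp_im m i3
  simp only [Complex.mul_re, Complex.mul_im, ei_re, ei_im] at r3 m3
  have r3' := condExp_sub (cc.integrable (μ := μ)) (ss.integrable (μ := μ)) m
  have m3' := condExp_add (cs.integrable (μ := μ)) (sc.integrable (μ := μ)) m
  have r1 := condExp_re m i1
  have m1 := condExp_im m i1
  have r2 := condExp_re m i2
  have m2 := condExp_im m i2
  simp only [ei_re, ei_im] at r1 m1 r2 m2
  filter_upwards [k1, k2, k3, k4, r3, m3, r3', m3', r1, m1, r2, m2] with ω k1 k2 k3 k4 r3 m3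
    r3' m3' r1 m1 r2 m2
  refine (Complex.norm_le_abs_re_add_abs_im _).trans ?_
  rw [Complex.sub_re, Complex.sub_im, Complex.mul_re, Complex.mul_im, r1, m1, r2, m2, r3, m3]
  have r3'' : (μ[fun ω => Real.cos (lL g r s ω) * Real.cos (lL g r t ω) -
      Real.sin (lL g r s ω) * Real.sin (lL g r t ω) | m]) ω =
      (μ[fun ω => Real.cos (lL g r s ω) * Real.cos (lL g r t ω) | m]) ω -
      (μ[fun ω => Real.sin (lL g r s ω) * Real.sin (lL g r t ω) | m]) ω := r3'
  have m3'' : (μ[fun ω => Real.cos (lL g r s ω) * Real.sin (lL g r t ω) +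
      Real.sin (lL g r s ω) * Real.cos (lL g r t ω) | m]) ω =
      (μ[fun ω => Real.cos (lL g r s ω) * Real.sin (lL g r t ω) | m]) ω +
      (μ[fun ω => Real.sin (lL g r s ω) * Real.cos (lL g r t ω) | m]) ω := m3'
  rw [r3'', m3'']
  simp only [ccov] at k1 k2 k3 k4 ⊢
  obtain ⟨k1a, k1b⟩ := abs_le.1 k1
  obtain ⟨k2a, k2b⟩ := abs_le.1 k2
  obtain ⟨k3a, k3b⟩ := abs_le.1 k3
  obtain ⟨k4a, k4b⟩ := abs_le.1 k4
  have e1 : ∀ a b c : ℝ, |a| ≤ 2 * c → |b| ≤ 2 * c → |a| + |b| ≤ 4 * c := by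
    intro a b c h1 h2
    linarith
  apply e1
  · rw [abs_le]
    constructor <;> linarith
  · rw [abs_le]
    constructor <;> linarith

end Vale.Agent.P153.CLT
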