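import Vale.Agent.P153.CLT.PlaneLoc
import Vale.Agent.P153.TwoPt.Defs2

/-!
# P153: neutral second moments of the even rows under the plane measure

Everything is expressed by `GFF.Vrow P j z = E φ(ev j z)²`.
-/

namespace Vale.Agent.P153.CLT

open MeasureTheory Filter Finset
open scoped Topology ENNReal

variable {P : Measure (ℤ × ℤ → ℤ)}

/-- The height at the site `p.2` of the even row `p.1`. -/
def hev (p : ℤ × ℤ) (φ : ℤ × ℤ → ℤ) : ℝ := ((φ (GFF.ev p.1 p.2) : ℤ) : ℝ)

lemma measurable_hev (p : ℤ × ℤ) : Measurable (hev p) := measurable_coord _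

lemma ev_sub (j x j' x' : ℤ) : GFF.ev (j - j') (x - x') + GFF.ev j' x' = GFF.ev j x := by
  unfold GFF.ev
  ext
  · simp; ring
  · simp; ring

/-- A Lipschitz height which vanishes at the origin is bounded at every site. -/
lemma abs_le_of_lip (φ : ℤ × ℤ → ℤ) (h : ∀ x y, GFF.Adj x y → |φ x - φ y| ≤ 1) (h0 : φ 0 = 0)
    (v : ℤ × ℤ) : |φ v| ≤ |v.1| + |v.2| := by
  have h1 : ∀ (n : ℕ) (a b : ℤ), |φ (a + n, b) - φ (a, b)| ≤ n := by
    intro n a b
    induction n with
    | zero => simp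
    | succ k ih =>
      have h2 := h (a + k, b) (a + k + 1, b) (by
        unfold GFF.Adj
        simp)
      push_cast
      rw [← add_assoc]
      rw [abs_le] at *
      constructor <;> linarith [h2.1, h2.2, ih.1, ih.2]
  have h2 : ∀ (n : ℕ) (a b : ℤ), |φ (a, b + n) - φ (a, b)| ≤ n := by
    intro n a b
    induction n with
    | zero => simp
    | succ k ih =>
      have h2 := h (a, b + k) (a, b + k + 1) (by
        unfold GFF.Adj
        simp)
      push_cast
      rw [← add_assoc]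
      rw [abs_le] at *
      constructor <;> linarith [h2.1, h2.2, ih.1, ih.2]
  have h3 : |φ (v.1, 0) - φ (0, 0)| ≤ |v.1| := by
    rcases le_total 0 v.1 with hv | hv
    · have := h1 v.1.toNat 0 0
      rw [zero_add, Int.toNat_of_nonneg hv] at this
      rwa [abs_of_nonneg hv]
    · have := h1 (-v.1).toNat v.1 0
      rw [Int.toNat_of_nonneg (by linarith), add_neg_cancel, abs_sub_comm] at this
      rwa [abs_of_nonpos hv]
  have h4 : |φ (v.1, v.2) - φ (v.1, 0)| ≤ |v.2| := by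
    rcases le_total 0 v.2 with hv | hv
    · have := h2 v.2.toNat v.1 0
      rw [zero_add, Int.toNat_of_nonneg hv] at this
      rwa [abs_of_nonneg hv]
    · have := h2 (-v.2).toNat v.1 v.2
      rw [Int.toNat_of_nonneg (by linarith), add_neg_cancel, abs_sub_comm] at this
      rwa [abs_of_nonpos hv]
  have h0' : φ (0, 0) = 0 := h0
  rw [h0', sub_zero] at h3
  have e : φ v = φ (v.1, v.2) - φ (v.1, 0) + φ (v.1, 0) := by ring
  rw [e]
  exact (abs_add_le _ _).trans (by linarith)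

/-- Bounded a.s., measurable. -/
lemma coord_bdd (hP : GFF.Plane P) (v : ℤ × ℤ) :
    ∀ᵐ φ ∂P, |((φ v : ℤ) : ℝ)| ≤ |(v.1 : ℝ)| + |(v.2 : ℝ)| := by
  filter_upwards [hP.lip, hP.zero] with φ h1 h0
  have := abs_le_of_lip φ h1 h0 v
  exact_mod_cast this

lemma integrable_mul_coord (hP : GFF.Plane P) (v w : ℤ × ℤ) :
    Integrable (fun φ : ℤ × ℤ → ℤ => ((φ v : ℤ) : ℝ) * ((φ w : ℤ) : ℝ)) P := by
  have := hP.prob
  refine Integrable.of_bound ((measurable_coord v).mul (measurable_coord w)).aestronglyMeasurable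
    ((|(v.1 : ℝ)| + |(v.2 : ℝ)|) * (|(w.1 : ℝ)| + |(w.2 : ℝ)|)) ?_
  filter_upwards [coord_bdd hP v, coord_bdd hP w] with φ h1 h2
  rw [Real.norm_eq_abs, abs_mul]
  exact mul_le_mul h1 h2 (abs_nonneg _) (by positivity)

/-- Mean square differences of the even rows. -/
theorem msd_eq (hP : GFF.Plane P) (p q : ℤ × ℤ) :
    ∫ φ, (hev p φ - hev q φ) ^ 2 ∂P = GFF.Vrow P (p.1 - q.1) (p.2 - q.2) := by
  unfold GFF.Vrow GFF.var2
  have h1 := Plane.integral_shift hP (GFF.ev q.1 q.2)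
    (fun φ => ((φ (GFF.ev (p.1 - q.1) (p.2 - q.2)) : ℤ) : ℝ) ^ 2)
    ((measurable_coord _).pow_const 2)
  rw [← h1]
  refine integral_congr_ae (Eventually.of_forall fun φ => ?_)
  unfold hev GFF.shift
  simp only [ev_sub]
  push_cast
  ring

lemma Vrow_neg_neg (hP : GFF.Plane P) (j z : ℤ) :
    GFF.Vrow P (-j) (-z) = GFF.Vrow P j z := by
  have h1 := msd_eq hP (0, 0) (j, z)
  have h2 := msd_eq hP (j, z) (0, 0)
  simp only [zero_sub, sub_zero] at h1 h2
  rw [← h1, ← h2]
  refine integral_congr_ae (Eventually.of_forall fun φ => ?_)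
  simp only
  ring

lemma var2_rot (hP : GFF.Plane P) (v : ℤ × ℤ) : GFF.var2 P (GFF.rot v) = GFF.var2 P v := by
  unfold GFF.var2
  conv_rhs => rw [← hP.rot]
  rw [integral_map (measurable_pi_iff.2 fun x => measurable_pi_apply _).aemeasurable
    ((measurable_coord v).pow_const 2).aestronglyMeasurable]

lemma var2_swap (hP : GFF.Plane P) (v : ℤ × ℤ) : GFF.var2 P (v.2, v.1) = GFF.var2 P v := by
  unfold GFF.var2
  conv_rhs => rw [← hP.swap]
  rw [integral_map (measurable_pi_iff.2 fun x => measurable_pi_apply _).aemeasurable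
    ((measurable_coord v).pow_const 2).aestronglyMeasurable]

/-- Reflection of a row: `Vrow P j (-z) = Vrow P j z`. -/
lemma Vrow_neg_right (hP : GFF.Plane P) (j z : ℤ) : GFF.Vrow P j (-z) = GFF.Vrow P j z := by
  rw [← Vrow_neg_neg hP j z]
  unfold GFF.Vrow
  -- `th (ev j x) = ev (-j) x`, `th = swap ∘ rot`
  have h1 := var2_swap hP (GFF.rot (GFF.ev j (-z)))
  rw [var2_rot hP] at h1
  rw [← h1]
  congr 1
  unfold GFF.rot GFF.ev
  ext
  · simp; ring
  · simp

lemma Vrow_neg_left (hP : GFF.Plane P) (j z : ℤ) : GFF.Vrow P (-j) z = GFF.Vrow P j z := by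
  rw [← Vrow_neg_right hP (-j) z, Vrow_neg_neg hP]

/-- **Neutral bilinear forms of the even rows.** -/
theorem plane_bilin (hP : GFF.Plane P) (S T : Finset (ℤ × ℤ)) (a b : ℤ × ℤ → ℝ)
    (ha : ∑ p ∈ S, a p = 0) (hb : ∑ q ∈ T, b q = 0) :
    ∫ φ, (∑ p ∈ S, a p * hev p φ) * (∑ q ∈ T, b q * hev q φ) ∂P =
      -(1 / 2) * ∑ p ∈ S, ∑ q ∈ T, a p * b q * GFF.Vrow P (p.1 - q.1) (p.2 - q.2) := by
  have hint : ∀ p q : ℤ × ℤ, Integrable (fun φ => (hev p φ - hev q φ) ^ 2) P := by
    intro p q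
    have e : (fun φ => (hev p φ - hev q φ) ^ 2) =
        fun φ => hev p φ * hev p φ - (hev p φ * hev q φ + hev p φ * hev q φ) +
          hev q φ * hev q φ := by
      funext φ; ring
    rw [e]
    exact ((integrable_mul_coord hP _ _).sub ((integrable_mul_coord hP _ _).add
      (integrable_mul_coord hP _ _))).add (integrable_mul_coord hP _ _)
  have hpt : ∀ φ, (∑ p ∈ S, a p * hev p φ) * (∑ q ∈ T, b q * hev q φ) =
      -(1 / 2) * ∑ p ∈ S, ∑ q ∈ T, a p * b q * (hev p φ - hev q φ) ^ 2 := by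
    intro φ
    have e1 : ∑ p ∈ S, ∑ q ∈ T, a p * b q * (hev p φ - hev q φ) ^ 2 =
        (∑ p ∈ S, a p * hev p φ ^ 2) * (∑ q ∈ T, b q) -
        2 * ((∑ p ∈ S, a p * hev p φ) * (∑ q ∈ T, b q * hev q φ)) +
        (∑ p ∈ S, a p) * (∑ q ∈ T, b q * hev q φ ^ 2) := by
      rw [Finset.sum_mul_sum, Finset.sum_mul_sum, Finset.sum_mul_sum, Finset.mul_sum,
        ← Finset.sum_sub_distrib, ← Finset.sum_add_distrib]
      refine Finset.sum_congr rfl fun p _ => ?_
      rw [Finset.mul_sum, ← Finset.sum_sub_distrib, ← Finset.sum_add_distrib]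
      refine Finset.sum_congr rfl fun q _ => ?_
      ring
    rw [e1, ha, hb]
    ring
  simp_rw [hpt]
  rw [integral_const_mul, integral_finsetSum _ fun p _ => integrable_finsetSum _ fun q _ =>
    (hint p q).const_mul _]
  congr 1
  refine Finset.sum_congr rfl fun p _ => ?_
  rw [integral_finsetSum _ fun q _ => (hint p q).const_mul _]
  refine Finset.sum_congr rfl fun q _ => ?_
  rw [integral_const_mul, msd_eq hP]

/-- The mean square of the vertical increments over a block. -/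
theorem wKl_eq (hP : GFF.Plane P) (K l : ℕ) :
    wKl P K l = ∑ x ∈ Finset.range l, ∑ y ∈ Finset.range l,
      (GFF.Vrow P K ((x : ℤ) - y) - GFF.Vrow P 0 ((x : ℤ) - y)) := by
  have hint : ∀ p q : ℤ × ℤ, Integrable (fun φ => (hev p φ - hev q φ) ^ 2) P := by
    intro p q
    have e : (fun φ => (hev p φ - hev q φ) ^ 2) =
        fun φ => hev p φ * hev p φ - (hev p φ * hev q φ + hev p φ * hev q φ) +
          hev q φ * hev q φ := by
      funext φ; ring
    rw [e]
    exact ((integrable_mul_coord hP _ _).sub ((integrable_mul_coord hP _ _).add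
      (integrable_mul_coord hP _ _))).add (integrable_mul_coord hP _ _)
  have hint2 : ∀ x y : ℤ, Integrable (fun φ => (hev (K, x) φ - hev (0, x) φ) *
      (hev (K, y) φ - hev (0, y) φ)) P := by
    intro x y
    have e : (fun φ => (hev (K, x) φ - hev (0, x) φ) * (hev (K, y) φ - hev (0, y) φ)) =
        fun φ => hev (K, x) φ * hev (K, y) φ - (hev (K, x) φ * hev (0, y) φ +
          hev (0, x) φ * hev (K, y) φ) + hev (0, x) φ * hev (0, y) φ := by
      funext φ; ring
    rw [e]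
    exact ((integrable_mul_coord hP _ _).sub ((integrable_mul_coord hP _ _).add
      (integrable_mul_coord hP _ _))).add (integrable_mul_coord hP _ _)
  have h2 : ∀ x y : ℤ, ∫ φ, (hev (K, x) φ - hev (0, x) φ) * (hev (K, y) φ - hev (0, y) φ) ∂P =
      GFF.Vrow P K (x - y) - GFF.Vrow P 0 (x - y) := by
    intro x y
    have e : ∀ φ, (hev (K, x) φ - hev (0, x) φ) * (hev (K, y) φ - hev (0, y) φ) =
        (1 / 2) * (((hev (K, x) φ - hev (0, y) φ) ^ 2 + (hev (0, x) φ - hev (K, y) φ) ^ 2) -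
          ((hev (K, x) φ - hev (K, y) φ) ^ 2 + (hev (0, x) φ - hev (0, y) φ) ^ 2)) := by
      intro φ; ring
    simp_rw [e]
    have i1 : Integrable (fun φ => (hev (K, x) φ - hev (0, y) φ) ^ 2 +
        (hev (0, x) φ - hev (K, y) φ) ^ 2) P := (hint _ _).add (hint _ _)
    have i2 : Integrable (fun φ => (hev (K, x) φ - hev (K, y) φ) ^ 2 +
        (hev (0, x) φ - hev (0, y) φ) ^ 2) P := (hint _ _).add (hint _ _)
    rw [integral_const_mul, integral_sub i1 i2,
      integral_add (hint _ _) (hint _ _), integral_add (hint _ _) (hint _ _), msd_eq hP,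
      msd_eq hP, msd_eq hP, msd_eq hP]
    simp only [sub_zero, zero_sub, sub_self]
    rw [Vrow_neg_left hP]
    ring
  unfold wKl
  have h3 : ∀ φ : ℤ × ℤ → ℤ, (∑ x ∈ Finset.Ico (0 : ℤ) l, (((φ (GFF.ev K x) : ℤ) : ℝ) -
      ((φ (GFF.ev 0 x) : ℤ) : ℝ))) ^ 2 = ∑ x ∈ Finset.range l, ∑ y ∈ Finset.range l,
      (hev (K, (x : ℤ)) φ - hev (0, (x : ℤ)) φ) * (hev (K, (y : ℤ)) φ - hev (0, (y : ℤ)) φ) := by
    intro φ
    have e : ∑ x ∈ Finset.Ico (0 : ℤ) l, (((φ (GFF.ev K x) : ℤ) : ℝ) -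
        ((φ (GFF.ev 0 x) : ℤ) : ℝ)) =
        ∑ x ∈ Finset.range l, (hev (K, (x : ℤ)) φ - hev (0, (x : ℤ)) φ) := by
      have e1 : Finset.Ico (0 : ℤ) l = (Finset.range l).map Nat.castEmbedding := by
        ext z
        simp only [Finset.mem_Ico, Finset.mem_map, Finset.mem_range, Nat.castEmbedding_apply]
        constructor
        · rintro ⟨h1, h2⟩
          exact ⟨z.toNat, by omega, by omega⟩
        · rintro ⟨a, ha, rfl⟩
          omega
      rw [e1, Finset.sum_map]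
      rfl
    rw [e, sq, Finset.sum_mul_sum]
  simp_rw [h3]
  rw [integral_finsetSum _ fun x _ => integrable_finsetSum _ fun y _ => hint2 _ _]
  refine Finset.sum_congr rfl fun x _ => ?_
  rw [integral_finsetSum _ fun y _ => hint2 _ _]
  refine Finset.sum_congr rfl fun y _ => ?_
  rw [h2]

/-- Cesàro means of the translates of a nonnegative summable function. -/
lemma cesaro {f : ℤ → ℝ} (hf : ∀ z, 0 ≤ f z) (hs : Summable f) :
    Tendsto (fun l : ℕ => (1 / (l : ℝ)) * ∑ x ∈ Finset.range l, ∑ y ∈ Finset.range l,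
      f ((x : ℤ) - y)) atTop (𝓝 (∑' z, f z)) := by
  have hup : ∀ l : ℕ, ∀ x : ℕ, ∑ y ∈ Finset.range l, f ((x : ℤ) - y) ≤ ∑' z, f z := by
    intro l x
    have e : ∑ y ∈ Finset.range l, f ((x : ℤ) - y) =
        ∑ z ∈ (Finset.range l).image (fun y : ℕ => (x : ℤ) - y), f z := by
      rw [Finset.sum_image]
      intro a _ b _ h
      simp only at h
      omega
    rw [e]
    exact hs.sum_le_tsum _ fun z _ => hf z
  have hS0 : 0 ≤ ∑' z, f z := tsum_nonneg hf
  rw [Metric.tendsto_atTop]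
  intro e he
  -- a finite window with almost the whole mass
  obtain ⟨R, hR⟩ : ∃ R : ℕ, ∑' z, f z - e / 2 < ∑ z ∈ Finset.Icc (-(R : ℤ)) R, f z := by
    have h1 : ∀ᶠ s : Finset ℤ in atTop, ∑' z, f z - e / 2 < ∑ z ∈ s, f z :=
      hs.hasSum.eventually (lt_mem_nhds (by linarith))
    obtain ⟨s, hs1⟩ := h1.exists_forall_of_atTop.imp fun s h => h s le_rfl
    obtain ⟨R, hR⟩ := (s.finite_toSet.image fun z : ℤ => z.natAbs).bddAbove
    refine ⟨R, hs1.trans_le ?_⟩
    refine Finset.sum_le_sum_of_subset_of_nonneg ?_ fun z _ _ => hf z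
    intro z hz
    have := hR ⟨z, hz, rfl⟩
    simp only at this
    rw [Finset.mem_Icc]
    omega
  obtain ⟨N, hN⟩ := exists_nat_gt ((2 * R * (∑' z, f z)) / (e / 2))
  refine ⟨max N (2 * R + 1), fun l hl => ?_⟩
  have hl1 : 2 * R + 1 ≤ l := (le_max_right _ _).trans hl
  have hl0 : (0 : ℝ) < l := by
    have : 0 < l := by omega
    exact_mod_cast this
  have hNl : (N : ℝ) ≤ l := by exact_mod_cast (le_max_left _ _).trans hl
  have hU : ∑ x ∈ Finset.range l, ∑ y ∈ Finset.range l, f ((x : ℤ) - y) ≤ l * ∑' z, f z := by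
    refine (Finset.sum_le_sum fun x _ => hup l x).trans ?_
    rw [Finset.sum_const, Finset.card_range, nsmul_eq_mul]
  have hL : ((l : ℝ) - 2 * R) * (∑' z, f z - e / 2) ≤
      ∑ x ∈ Finset.range l, ∑ y ∈ Finset.range l, f ((x : ℤ) - y) := by
    rcases le_or_gt (∑' z, f z - e / 2) 0 with h0 | h0
    · refine le_trans ?_ (Finset.sum_nonneg fun x _ => Finset.sum_nonneg fun y _ => hf _)
      refine mul_nonpos_of_nonneg_of_nonpos ?_ h0
      have : ((2 * R + 1 : ℕ) : ℝ) ≤ l := by exact_mod_cast hl1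
      push_cast at this
      linarith
    · have h2 : ∑ x ∈ Finset.Ico R (l - R), ∑ y ∈ Finset.range l, f ((x : ℤ) - y) ≤
          ∑ x ∈ Finset.range l, ∑ y ∈ Finset.range l, f ((x : ℤ) - y) := by
        refine Finset.sum_le_sum_of_subset_of_nonneg ?_ fun x _ _ =>
          Finset.sum_nonneg fun y _ => hf _
        intro x hx
        rw [Finset.mem_Ico] at hx
        rw [Finset.mem_range]
        omega
      refine le_trans ?_ h2
      have h3 : ∀ x ∈ Finset.Ico R (l - R), ∑' z, f z - e / 2 ≤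
          ∑ y ∈ Finset.range l, f ((x : ℤ) - y) := by
        intro x hx
        rw [Finset.mem_Ico] at hx
        refine hR.le.trans ?_
        have e1 : ∑ y ∈ Finset.range l, f ((x : ℤ) - y) =
            ∑ z ∈ (Finset.range l).image (fun y : ℕ => (x : ℤ) - y), f z := by
          rw [Finset.sum_image]
          intro a _ b _ h
          simp only at h
          omega
        rw [e1]
        refine Finset.sum_le_sum_of_subset_of_nonneg ?_ fun z _ _ => hf z
        intro z hz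
        rw [Finset.mem_Icc] at hz
        rw [Finset.mem_image]
        refine ⟨((x : ℤ) - z).toNat, ?_, ?_⟩
        · rw [Finset.mem_range]
          omega
        · omega
      have h4 := Finset.sum_le_sum h3
      rw [Finset.sum_const, Nat.card_Ico, nsmul_eq_mul] at h4
      refine le_trans (le_of_eq ?_) h4
      congr 1
      have h5 : ((l - R - R : ℕ) : ℝ) = (l : ℝ) - R - R := by
        rw [Nat.cast_sub (by omega), Nat.cast_sub (by omega)]
      rw [h5]
      ring
  have hN2 : 2 * R * (∑' z, f z) < l * (e / 2) := by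
    rw [div_lt_iff₀ (by positivity)] at hN
    refine hN.trans_le ?_
    gcongr
  rw [Real.dist_eq, abs_lt]
  have hR0 : (0 : ℝ) ≤ R := Nat.cast_nonneg _
  constructor
  · rw [neg_lt_sub_iff_lt_add, one_div, inv_mul_eq_div]
    rw [← sub_lt_iff_lt_add', lt_div_iff₀ hl0]
    nlinarith
  · rw [one_div, inv_mul_eq_div, sub_lt_iff_lt_add', div_lt_iff₀ hl0]
    nlinarith

/-- **The constant of the local squares.** -/
theorem wKl_lim (hP : GFF.Plane P) {m : ProbabilityTheory.Kernel ℝ ℝ} {c κ C k0 : ℝ}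
    (hS : TwoPt.Spec (GFF.Vrow P) m c κ C k0) (h3 : TwoPt.P3Statement) (h4 : TwoPt.P4Statement)
    (h6 : TwoPt.P6Statement)
    (hTK : ∀ K l : ℕ, 0 ≤ ∑ x ∈ Finset.range l, ∑ y ∈ Finset.range l,
      TwoPt.TK (GFF.Vrow P) K ((x : ℤ) - y))
    (hCK : ∀ K : ℕ, 0 < K → ∀ z, 0 ≤ TwoPt.CK (GFF.Vrow P) K z) (ε : ℝ) (hε : 0 < ε) :
    ∃ K0 : ℕ, ∀ K ≥ K0, ∃ l0 : ℕ, ∀ l ≥ l0, |wKl P K l / (K * l) - κ| ≤ ε := by
  obtain ⟨K1, hK1⟩ := h6 _ _ _ _ _ _ hS (ε / 3) (by positivity)
  have h4' := h4 _ _ _ _ _ _ hS hCK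
  rw [Metric.tendsto_atTop] at h4'
  obtain ⟨K2, hK2⟩ := h4' (ε / 3) (by positivity)
  refine ⟨max (max K1 K2) 1, fun K hK => ?_⟩
  have hKa : K1 ≤ K := (le_max_left _ _).trans ((le_max_left _ _).trans hK)
  have hKb : K2 ≤ K := (le_max_right _ _).trans ((le_max_left _ _).trans hK)
  have hKc : 0 < K := lt_of_lt_of_le one_pos ((le_max_right _ _).trans hK)
  have hK0 : (0 : ℝ) < K := by exact_mod_cast hKc
  obtain ⟨l1, hl1⟩ := hK1 K hKa
  have hs := h3 _ _ _ _ _ _ hS K hKc (hCK K hKc)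
  have hces := cesaro (hCK K hKc) hs
  rw [Metric.tendsto_atTop] at hces
  obtain ⟨l2, hl2⟩ := hces (K * (ε / 3)) (by positivity)
  refine ⟨max (max l1 l2) 1, fun l hl => ?_⟩
  have hla : l1 ≤ l := (le_max_left _ _).trans ((le_max_left _ _).trans hl)
  have hlb : l2 ≤ l := (le_max_right _ _).trans ((le_max_left _ _).trans hl)
  have hlc : 0 < l := lt_of_lt_of_le one_pos ((le_max_right _ _).trans hl)
  have hl0 : (0 : ℝ) < l := by exact_mod_cast hlc
  have a1 := hl1 l hla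
  have a2 := hl2 l hlb
  have a3 := hK2 K hKb
  have a4 := hTK K l
  rw [Real.dist_eq] at a2 a3
  have e1 : wKl P K l = ∑ x ∈ Finset.range l, ∑ y ∈ Finset.range l,
      TwoPt.TK (GFF.Vrow P) K ((x : ℤ) - y) + ∑ x ∈ Finset.range l, ∑ y ∈ Finset.range l,
      TwoPt.CK (GFF.Vrow P) K ((x : ℤ) - y) := by
    rw [wKl_eq hP, ← Finset.sum_add_distrib]
    refine Finset.sum_congr rfl fun x _ => ?_
    rw [← Finset.sum_add_distrib]
    refine Finset.sum_congr rfl fun y _ => ?_
    unfold TwoPt.TK TwoPt.CK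
    ring
  set T := ∑ x ∈ Finset.range l, ∑ y ∈ Finset.range l, TwoPt.TK (GFF.Vrow P) K ((x : ℤ) - y)
  set S := ∑ x ∈ Finset.range l, ∑ y ∈ Finset.range l, TwoPt.CK (GFF.Vrow P) K ((x : ℤ) - y)
  have e2 : wKl P K l / (K * l) - κ = (1 / (l : ℝ)) * T / K +
      ((1 / (l : ℝ)) * S - ∑' z, TwoPt.CK (GFF.Vrow P) K z) / K +
      ((∑' z, TwoPt.CK (GFF.Vrow P) K z) / K - κ) := by
    rw [e1]
    field_simp
    ring
  rw [e2]
  have b1 : |(1 / (l : ℝ)) * T / K| ≤ ε / 3 := by
    rw [abs_of_nonneg (by positivity), div_le_iff₀ hK0]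
    exact a1
  have b2 : |((1 / (l : ℝ)) * S - ∑' z, TwoPt.CK (GFF.Vrow P) K z) / K| ≤ ε / 3 := by
    rw [abs_div, abs_of_pos hK0, div_le_iff₀ hK0]
    linarith
  have b3 := abs_add_le ((1 / (l : ℝ)) * T / K +
      ((1 / (l : ℝ)) * S - ∑' z, TwoPt.CK (GFF.Vrow P) K z) / K)
      ((∑' z, TwoPt.CK (GFF.Vrow P) K z) / K - κ)
  have b4 := abs_add_le ((1 / (l : ℝ)) * T / K)
      (((1 / (l : ℝ)) * S - ∑' z, TwoPt.CK (GFF.Vrow P) K z) / K)
  linarith

end Vale.Agent.P153.CLT
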