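import Vale.Agent.P153.CLT.NP
import Mathlib.Analysis.Complex.Exponential

/-!
# Block form of the conditional Newman inequality and Taylor expansion
-/

namespace Vale.Agent.P153.CLT

open MeasureTheory Filter Finset
open scoped Topology

variable {Ω : Type*} {mΩ : MeasurableSpace Ω} {μ : Measure Ω}
variable {ι β : Type*} [Fintype ι] [DecidableEq β]

/-- Indices whose block lies in `T`. -/
def sT (b : ι → β) (T : Finset β) : Finset ι := univ.filter (fun i => b i ∈ T)

/-- Total covariance between different blocks, inside a set of indices. -/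
noncomputable def cross (μ : Measure[mΩ] Ω) (g : ι → ℝ) (r : ι → Ω → ℝ) (b : ι → β)
    (s : Finset ι) : ℝ :=
  ∑ i ∈ s, ∑ j ∈ s, if b i = b j then 0 else |g i| * |g j| * ∫ ω, r i ω * r j ω ∂μ

omit [Fintype ι] in
lemma integral_mul_nonneg_of_assoc [IsProbabilityMeasure μ] {m : MeasurableSpace Ω} (hm : m ≤ mΩ)
    {r : ι → Ω → ℝ} (hA : NP μ m r)
    (hc : ∀ i, μ[r i | m] =ᵐ[μ] 0) (i j : ι) : 0 ≤ ∫ ω, r i ω * r j ω ∂μ := by
  rw [← integral_condExp hm]
  refine integral_nonneg_of_ae ?_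
  filter_upwards [hA.nn i j, hc i] with ω h1 h2
  simp only [ccov] at h1
  rw [h2] at h1
  simpa using h1

omit [Fintype ι] in
lemma condExp_aL [IsProbabilityMeasure μ] (m : MeasurableSpace Ω) {g : ι → ℝ}
    {r : ι → Ω → ℝ} (hr : ∀ i, BM (mΩ := mΩ) (r i)) (hc : ∀ i, μ[r i | m] =ᵐ[μ] 0)
    (s : Finset ι) : μ[aL g r s | m] =ᵐ[μ] 0 := by
  classical
  have e : aL g r s = ∑ i ∈ s, (|g i|) • r i := by
    funext ω
    simp [aL, Finset.sum_apply]
  rw [e]
  have h1 := condExp_finsetSum (μ := μ) (s := s) (f := fun i => (|g i|) • r i)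
    (fun i _ => ((hr i).integrable (μ := μ)).smul _) m
  refine h1.trans ?_
  have h2 : ∀ i ∈ s, μ[(|g i|) • r i | m] =ᵐ[μ] 0 := by
    intro i _
    filter_upwards [condExp_smul (μ := μ) (|g i|) (r i) m, hc i] with ω a b
    rw [a, Pi.smul_apply, b]
    simp
  have h3 : ∀ᵐ ω ∂μ, ∀ i ∈ s, (μ[(|g i|) • r i | m]) ω = 0 := by
    have := (Finset.eventually_all s (l := ae μ) (p := fun i ω => (μ[(|g i|) • r i | m]) ω = 0)).2
      (fun i hi => h2 i hi)
    exact this
  filter_upwards [h3] with ω h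
  rw [Finset.sum_apply, Pi.zero_apply]
  exact Finset.sum_eq_zero h

omit [Fintype ι] in
lemma integral_ccov_aL [IsProbabilityMeasure μ] {m : MeasurableSpace Ω} (hm : m ≤ mΩ) {g : ι → ℝ}
    {r : ι → Ω → ℝ} (hr : ∀ i, BM (mΩ := mΩ) (r i)) (hc : ∀ i, μ[r i | m] =ᵐ[μ] 0)
    (s t : Finset ι) :
    ∫ ω, ccov μ m (aL g r s) (aL g r t) ω ∂μ =
      ∑ i ∈ s, ∑ j ∈ t, |g i| * |g j| * ∫ ω, r i ω * r j ω ∂μ := by
  have h1 : ccov μ m (aL g r s) (aL g r t) =ᵐ[μ] μ[fun ω => aL g r s ω * aL g r t ω | m] := by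
    filter_upwards [condExp_aL (g := g) m hr hc s] with ω h
    simp only [ccov]
    rw [h]
    simp
  rw [integral_congr_ae h1, integral_condExp hm]
  have h2 : (fun ω => aL g r s ω * aL g r t ω) = fun ω =>
      ∑ i ∈ s, ∑ j ∈ t, |g i| * |g j| * (r i ω * r j ω) := by
    funext ω
    simp only [aL]
    rw [Finset.sum_mul_sum]
    refine Finset.sum_congr rfl fun i _ => Finset.sum_congr rfl fun j _ => ?_
    ring
  rw [h2, integral_finsetSum]
  · refine Finset.sum_congr rfl fun i _ => ?_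
    rw [integral_finsetSum]
    · refine Finset.sum_congr rfl fun j _ => ?_
      rw [integral_const_mul]
    · intro j _
      exact (((hr i).mul (hr j)).integrable (μ := μ)).const_mul _
  · intro i _
    exact integrable_finsetSum _ fun j _ => (((hr i).mul (hr j)).integrable (μ := μ)).const_mul _

omit [Fintype ι] in
lemma integrable_ccov_aL [IsProbabilityMeasure μ] (m : MeasurableSpace Ω) {g : ι → ℝ}
    {r : ι → Ω → ℝ} (hr : ∀ i, BM (mΩ := mΩ) (r i)) (hc : ∀ i, μ[r i | m] =ᵐ[μ] 0)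
    (s t : Finset ι) : Integrable (ccov μ m (aL g r s) (aL g r t)) μ := by
  have h1 : ccov μ m (aL g r s) (aL g r t) =ᵐ[μ] μ[fun ω => aL g r s ω * aL g r t ω | m] := by
    filter_upwards [condExp_aL (g := g) m hr hc s] with ω h
    simp only [ccov]
    rw [h]
    simp
  exact integrable_condExp.congr h1.symm

lemma cross_insert_le [IsProbabilityMeasure μ] {m : MeasurableSpace Ω} (hm : m ≤ mΩ) {g : ι → ℝ}
    {r : ι → Ω → ℝ} (hA : NP μ m r) (hc : ∀ i, μ[r i | m] =ᵐ[μ] 0)
    (b : ι → β) (b0 : β) (T : Finset β) (hb : b0 ∉ T) :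
    (∑ i ∈ sT b {b0}, ∑ j ∈ sT b T, |g i| * |g j| * ∫ ω, r i ω * r j ω ∂μ) +
      cross μ g r b (sT b T) ≤ cross μ g r b (sT b (insert b0 T)) := by
  classical
  have hdisj : Disjoint (sT b {b0}) (sT b T) := by
    rw [Finset.disjoint_left]
    intro i h1 h2
    simp only [sT, mem_filter, mem_univ, true_and, mem_singleton] at h1 h2
    exact hb (h1 ▸ h2)
  have hun : sT b (insert b0 T) = sT b {b0} ∪ sT b T := by
    ext i
    simp [sT]
  have hnn : ∀ i j, 0 ≤ (if b i = b j then 0 else |g i| * |g j| * ∫ ω, r i ω * r j ω ∂μ) := by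
    intro i j
    split_ifs
    · exact le_rfl
    · exact mul_nonneg (mul_nonneg (abs_nonneg _) (abs_nonneg _))
        (integral_mul_nonneg_of_assoc hm hA hc i j)
  unfold cross
  rw [hun, Finset.sum_union hdisj]
  refine add_le_add ?_ ?_
  · refine Finset.sum_le_sum fun i hi => ?_
    rw [Finset.sum_union hdisj]
    have h1 : ∑ j ∈ sT b T, |g i| * |g j| * ∫ ω, r i ω * r j ω ∂μ =
        ∑ j ∈ sT b T, (if b i = b j then 0 else |g i| * |g j| * ∫ ω, r i ω * r j ω ∂μ) := by
      refine Finset.sum_congr rfl fun j hj => ?_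
      simp only [sT, mem_filter, mem_univ, true_and, mem_singleton] at hi hj
      rw [if_neg]
      intro h
      exact hb (hi ▸ h ▸ hj)
    rw [h1]
    exact le_add_of_nonneg_left (Finset.sum_nonneg fun j _ => hnn i j)
  · refine Finset.sum_le_sum fun i _ => ?_
    rw [Finset.sum_union hdisj]
    exact le_add_of_nonneg_left (Finset.sum_nonneg fun j _ => hnn i j)

omit [DecidableEq β] in
lemma integrable_prod_condExp [IsProbabilityMeasure μ] {m : MeasurableSpace Ω} (hm : m ≤ mΩ)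
    (T : Finset β) (f : β → Ω → ℂ) (hf : ∀ b ω, ‖f b ω‖ ≤ 1) (hfi : ∀ b, Integrable (f b) μ) :
    Integrable (fun ω => ∏ b ∈ T, (μ[f b | m]) ω) μ := by
  refine Integrable.of_bound ?_ 1 ?_
  · refine Finset.aestronglyMeasurable_fun_prod T fun b _ => ?_
    exact (stronglyMeasurable_condExp.mono hm).aestronglyMeasurable
  · have h : ∀ᵐ ω ∂μ, ∀ b ∈ T, ‖(μ[f b | m]) ω‖ ≤ 1 :=
      (Finset.eventually_all T (l := ae μ) (p := fun b ω => ‖(μ[f b | m]) ω‖ ≤ 1)).2
        (fun b _ => norm_condExp_le_one hm (hf b) (hfi b))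
    filter_upwards [h] with ω h
    rw [norm_prod]
    exact Finset.prod_le_one (fun b _ => norm_nonneg _) h

/-- Block form of the conditional Newman inequality (integrated). -/
theorem newman_blocks [IsProbabilityMeasure μ] {m : MeasurableSpace Ω} (hm : m ≤ mΩ) {g : ι → ℝ}
    {r : ι → Ω → ℝ} (hr : ∀ i, BM (mΩ := mΩ) (r i)) (hA : NP μ m r)
    (hc : ∀ i, μ[r i | m] =ᵐ[μ] 0) (b : ι → β) (T : Finset β) :
    ∫ ω, ‖(μ[fun ω => ei (lL g r (sT b T) ω) | m]) ω -
      ∏ c ∈ T, (μ[fun ω => ei (lL g r (sT b {c}) ω) | m]) ω‖ ∂μ ≤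
      4 * cross μ g r b (sT b T) := by
  classical
  have hi : ∀ s : Finset ι, Integrable (fun ω => ei (lL g r s ω)) μ := fun s =>
    integrable_ei (bm_lL hr s).1
  have hn : ∀ (s : Finset ι) ω, ‖ei (lL g r s ω)‖ ≤ 1 := fun s ω => (norm_ei _).le
  induction T using Finset.induction_on with
  | empty =>
    have h0 : sT b (∅ : Finset β) = ∅ := by simp [sT]
    rw [h0]
    have h1 : (fun ω => ei (lL g r (∅ : Finset ι) ω)) = fun _ : Ω => (1 : ℂ) := by
      funext ω
      simp [lL, ei_zero]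
    rw [h1]
    simp [condExp_const hm, cross]
  | insert c T hcT ih =>
    have hsplit : ∀ ω, lL g r (sT b (insert c T)) ω = lL g r (sT b {c}) ω + lL g r (sT b T) ω := by
      intro ω
      have hdisj : Disjoint (sT b {c}) (sT b T) := by
        rw [Finset.disjoint_left]
        intro i h1 h2
        simp only [sT, mem_filter, mem_univ, true_and, mem_singleton] at h1 h2
        exact hcT (h1 ▸ h2)
      have hun : sT b (insert c T) = sT b {c} ∪ sT b T := by
        ext i
        simp [sT]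
      unfold lL
      rw [hun, Finset.sum_union hdisj]
    have e1 : (fun ω => ei (lL g r (sT b (insert c T)) ω)) =
        fun ω => ei (lL g r (sT b {c}) ω) * ei (lL g r (sT b T) ω) := by
      funext ω
      rw [hsplit, ei_add]
    rw [e1]
    have hP := integrable_prod_condExp (μ := μ) hm T (fun c ω => ei (lL g r (sT b {c}) ω))
      (fun c ω => hn _ ω) (fun c => hi _)
    have k1 := hA.ineq g (sT b {c}) (sT b T)
    have k2 := norm_condExp_le_one (μ := μ) hm (hn (sT b {c})) (hi _)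
    have hd : Integrable (fun ω => ‖(μ[fun ω => ei (lL g r (sT b T) ω) | m]) ω -
        ∏ c ∈ T, (μ[fun ω => ei (lL g r (sT b {c}) ω) | m]) ω‖) μ :=
      (integrable_condExp.sub hP).norm
    have hcc := (integrable_ccov_aL (μ := μ) (g := g) m hr hc (sT b {c}) (sT b T)).const_mul 4
    calc ∫ ω, ‖(μ[fun ω => ei (lL g r (sT b {c}) ω) * ei (lL g r (sT b T) ω) | m]) ω -
          ∏ c ∈ insert c T, (μ[fun ω => ei (lL g r (sT b {c}) ω) | m]) ω‖ ∂μ
        ≤ ∫ ω, (4 * ccov μ m (aL g r (sT b {c})) (aL g r (sT b T)) ω +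
          ‖(μ[fun ω => ei (lL g r (sT b T) ω) | m]) ω -
            ∏ c ∈ T, (μ[fun ω => ei (lL g r (sT b {c}) ω) | m]) ω‖) ∂μ := by
          refine integral_mono_of_nonneg (ae_of_all _ fun ω => norm_nonneg _) (hcc.add hd) ?_
          filter_upwards [k1, k2] with ω a1 a2
          rw [Finset.prod_insert hcT]
          set A := (μ[fun ω => ei (lL g r (sT b {c}) ω) * ei (lL g r (sT b T) ω) | m]) ω
          set B := (μ[fun ω => ei (lL g r (sT b {c}) ω) | m]) ω
          set C := (μ[fun ω => ei (lL g r (sT b T) ω) | m]) ω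
          set D := ∏ c ∈ T, (μ[fun ω => ei (lL g r (sT b {c}) ω) | m]) ω
          have : A - B * D = (A - B * C) + B * (C - D) := by ring
          rw [this]
          refine (norm_add_le _ _).trans (add_le_add a1 ?_)
          rw [norm_mul]
          calc ‖B‖ * ‖C - D‖ ≤ 1 * ‖C - D‖ := mul_le_mul_of_nonneg_right a2 (norm_nonneg _)
            _ = _ := one_mul _
      _ = 4 * (∑ i ∈ sT b {c}, ∑ j ∈ sT b T, |g i| * |g j| * ∫ ω, r i ω * r j ω ∂μ) +
          ∫ ω, ‖(μ[fun ω => ei (lL g r (sT b T) ω) | m]) ω -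
            ∏ c ∈ T, (μ[fun ω => ei (lL g r (sT b {c}) ω) | m]) ω‖ ∂μ := by
          rw [integral_add hcc hd, integral_const_mul, integral_ccov_aL hm hr hc]
      _ ≤ 4 * (∑ i ∈ sT b {c}, ∑ j ∈ sT b T, |g i| * |g j| * ∫ ω, r i ω * r j ω ∂μ) +
          4 * cross μ g r b (sT b T) := add_le_add le_rfl ih
      _ ≤ 4 * cross μ g r b (sT b (insert c T)) := by
          rw [← mul_add]
          exact mul_le_mul_of_nonneg_left (cross_insert_le hm hA hc b c T hcT) (by norm_num)

end Vale.Agent.P153.CLT
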