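import Vale.Agent.P153.CLT.Blocks

/-!
# Central limit theorem for martingale differences that are conditionally associated

The characteristic function of `∑_j ∑_i g j i * r j i` is close to `exp (-s / 2)`, with an
explicit error: cross covariances between different blocks, the size of the block sums, and
the `L¹` fluctuation of the total conditional block variance.
-/

namespace Vale.Agent.P153.CLT

open MeasureTheory Filter Finset
open scoped Topology

variable {Ω : Type*} {mΩ : MeasurableSpace Ω} {μ : Measure Ω}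

lemma taylor_ei {x : ℝ} (hx : |x| ≤ 1) :
    ‖ei x - (1 + Complex.I * x - ((x ^ 2 / 2 : ℝ) : ℂ))‖ ≤ 2 / 9 * |x| ^ 3 := by
  have h1 : ‖Complex.I * (x : ℂ)‖ = |x| := by
    rw [norm_mul, Complex.norm_I, one_mul, Complex.norm_real, Real.norm_eq_abs]
  have h := Complex.exp_bound (x := Complex.I * x) (by rw [h1]; exact hx) (n := 3) (by norm_num)
  rw [h1] at h
  have e : ∑ m ∈ range 3, (Complex.I * (x : ℂ)) ^ m / (m.factorial : ℂ) =
      1 + Complex.I * x - ((x ^ 2 / 2 : ℝ) : ℂ) := by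
    simp only [Finset.sum_range_succ, Finset.sum_range_zero, Nat.factorial]
    push_cast
    ring_nf
    rw [Complex.I_sq]
    ring
  rw [e] at h
  refine h.trans (le_of_eq ?_)
  norm_num [Nat.factorial]
  ring

lemma exp_neg_half_bound {v : ℝ} (h0 : 0 ≤ v) (h1 : v ≤ 1) :
    |Real.exp (-v / 2) - (1 - v / 2)| ≤ v ^ 2 / 4 := by
  have h := Real.abs_exp_sub_one_sub_id_le (x := -v / 2) (by
    rw [abs_le]
    constructor <;> linarith)
  have e : Real.exp (-v / 2) - (1 - v / 2) = Real.exp (-v / 2) - 1 - -v / 2 := by ring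
  rw [e]
  refine h.trans (le_of_eq ?_)
  ring

/-- Conditional Taylor expansion of one block. -/
lemma taylor_block [IsProbabilityMeasure μ] {m : MeasurableSpace Ω} (hm : m ≤ mΩ) {X : Ω → ℝ}
    (hX : Measurable[mΩ] X) {η : ℝ} (hη : η ≤ 1) (hb : ∀ ω, |X ω| ≤ η)
    (hc : μ[X | m] =ᵐ[μ] 0) :
    ∀ᵐ ω ∂μ, ‖(μ[fun ω => ei (X ω) | m]) ω -
      ((Real.exp (-|(μ[fun ω => X ω ^ 2 | m]) ω| / 2) : ℝ) : ℂ)‖ ≤
      η * |(μ[fun ω => X ω ^ 2 | m]) ω| := by
  obtain ⟨ω0⟩ : Nonempty Ω := by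
    by_contra h
    rw [not_nonempty_iff] at h
    have h1 := measure_univ (μ := μ)
    rw [Set.univ_eq_empty_iff.2 h, measure_empty] at h1
    exact zero_ne_one h1
  have hη0 : 0 ≤ η := (abs_nonneg _).trans (hb ω0)
  have hXi : Integrable X μ := integrable_of_norm_le hX.aestronglyMeasurable η hb
  have hX2b : ∀ ω, |X ω ^ 2| ≤ η ^ 2 := by
    intro ω
    rw [abs_pow]
    exact pow_le_pow_left₀ (abs_nonneg _) (hb ω) 2
  have hX2i : Integrable (fun ω => X ω ^ 2) μ :=
    integrable_of_norm_le (hX.pow_const 2).aestronglyMeasurable (η ^ 2) hX2b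
  have hei : Integrable (fun ω => ei (X ω)) μ := integrable_ei hX
  -- the quadratic polynomial
  set q : Ω → ℂ := fun ω => 1 + Complex.I * X ω - ((X ω ^ 2 / 2 : ℝ) : ℂ) with hq
  have hXc : Integrable (fun ω => Complex.I * (X ω : ℂ)) μ := (hXi.ofReal).const_mul _
  have hX2c : Integrable (fun ω => ((X ω ^ 2 / 2 : ℝ) : ℂ)) μ := (hX2i.div_const 2).ofReal
  have hqi : Integrable q μ := ((integrable_const 1).add hXc).sub hX2c
  have hre := condExp_re m hqi
  have him := condExp_im m hqi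
  have e1 : (fun ω => (q ω).re) = (fun _ => (1 : ℝ)) - (2 : ℝ)⁻¹ • (fun ω => X ω ^ 2) := by
    funext ω
    simp only [hq, Complex.sub_re, Complex.add_re, Complex.one_re, Complex.mul_re, Complex.I_re,
      Complex.I_im, Complex.ofReal_re, Complex.ofReal_im, Pi.sub_apply, Pi.smul_apply, smul_eq_mul]
    ring
  have e2 : (fun ω => (q ω).im) = X := by
    funext ω
    simp only [hq, Complex.sub_im, Complex.add_im, Complex.one_im, Complex.mul_im, Complex.I_re,
      Complex.I_im, Complex.ofReal_re, Complex.ofReal_im]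
    ring
  rw [e1] at hre
  rw [e2] at him
  have c1 := condExp_sub (μ := μ) (integrable_const (1 : ℝ)) (hX2i.smul (2 : ℝ)⁻¹) m
  have c2 := condExp_smul (μ := μ) (2 : ℝ)⁻¹ (fun ω => X ω ^ 2) m
  rw [condExp_const hm] at c1
  -- comparison of `ei X` with the polynomial
  have d1 := condExp_sub hei hqi m
  have d2 := norm_condExp_le (μ := μ) (m := m) ((fun ω => ei (X ω)) - q)
  have d3 : μ[fun ω => ‖((fun ω => ei (X ω)) - q) ω‖ | m] ≤ᵐ[μ]
      μ[(2 / 9 * η) • (fun ω => X ω ^ 2) | m] := by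
    refine condExp_mono (hei.sub hqi).norm (hX2i.smul _) (ae_of_all _ fun ω => ?_)
    simp only [Pi.sub_apply, Pi.smul_apply, smul_eq_mul]
    refine (taylor_ei ((hb ω).trans hη)).trans ?_
    have : |X ω| ^ 3 = |X ω| * X ω ^ 2 := by
      rw [← sq_abs (X ω)]
      ring
    rw [this]
    have h2 := mul_le_mul_of_nonneg_right (hb ω) (sq_nonneg (X ω))
    linarith
  have d4 := condExp_smul (μ := μ) (2 / 9 * η) (fun ω => X ω ^ 2) m
  have p1 : 0 ≤ᵐ[μ] μ[fun ω => X ω ^ 2 | m] := condExp_nonneg (ae_of_all _ fun ω => sq_nonneg _)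
  have p2 : μ[fun ω => X ω ^ 2 | m] ≤ᵐ[μ] μ[fun _ => η ^ 2 | m] :=
    condExp_mono hX2i (integrable_const _) (ae_of_all _ fun ω => (le_abs_self _).trans (hX2b ω))
  rw [condExp_const hm] at p2
  filter_upwards [hre, him, c1, c2, d1, d2, d3, d4, p1, p2, hc] with ω hre him c1 c2 d1 d2 d3 d4
    p1 p2 hc
  set v := (μ[fun ω => X ω ^ 2 | m]) ω with hv
  have p1' : 0 ≤ v := p1
  rw [abs_of_nonneg p1']
  have hq' : (μ[q | m]) ω = ((1 - v / 2 : ℝ) : ℂ) := by
    apply Complex.ext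
    · rw [hre, c1, Pi.sub_apply, c2, Pi.smul_apply, smul_eq_mul, ← hv, Complex.ofReal_re]
      ring
    · rw [him, hc, Complex.ofReal_im]
      rfl
  have hv1 : v ≤ η ^ 2 := p2
  have hv2 : v ≤ η := hv1.trans (by nlinarith)
  have a1 : ‖(μ[fun ω => ei (X ω) | m]) ω - (μ[q | m]) ω‖ ≤ 2 / 9 * η * v := by
    rw [← Pi.sub_apply, ← d1]
    refine d2.trans (d3.trans ?_)
    rw [d4, Pi.smul_apply, smul_eq_mul]
  have a2 : ‖(((1 - v / 2 : ℝ) : ℂ)) - ((Real.exp (-v / 2) : ℝ) : ℂ)‖ ≤ η * v / 4 := by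
    rw [← Complex.ofReal_sub, Complex.norm_real, Real.norm_eq_abs, abs_sub_comm]
    refine (exp_neg_half_bound p1' (hv2.trans hη)).trans ?_
    have := mul_le_mul_of_nonneg_right hv2 p1'
    nlinarith
  calc ‖(μ[fun ω => ei (X ω) | m]) ω - ((Real.exp (-v / 2) : ℝ) : ℂ)‖
      = ‖((μ[fun ω => ei (X ω) | m]) ω - (μ[q | m]) ω) +
        ((((1 - v / 2 : ℝ) : ℂ)) - ((Real.exp (-v / 2) : ℝ) : ℂ))‖ := by
        rw [hq']
        congr 1
        ring
    _ ≤ 2 / 9 * η * v + η * v / 4 := (norm_add_le _ _).trans (add_le_add a1 a2)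
    _ ≤ η * v := by
        have := mul_nonneg hη0 p1'
        nlinarith

lemma norm_prod_sub_prod_le {β : Type*} (T : Finset β) (a c : β → ℂ) (ha : ∀ b ∈ T, ‖a b‖ ≤ 1)
    (hc : ∀ b ∈ T, ‖c b‖ ≤ 1) :
    ‖∏ b ∈ T, a b - ∏ b ∈ T, c b‖ ≤ ∑ b ∈ T, ‖a b - c b‖ := by
  classical
  induction T using Finset.induction_on with
  | empty => simp
  | insert b T hb ih =>
    rw [Finset.prod_insert hb, Finset.prod_insert hb, Finset.sum_insert hb]
    have ih := ih (fun i hi => ha i (mem_insert_of_mem hi)) (fun i hi => hc i (mem_insert_of_mem hi))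
    have e : a b * ∏ i ∈ T, a i - c b * ∏ i ∈ T, c i =
        (a b - c b) * ∏ i ∈ T, a i + c b * (∏ i ∈ T, a i - ∏ i ∈ T, c i) := by ring
    rw [e]
    refine (norm_add_le _ _).trans ?_
    rw [norm_mul, norm_mul]
    refine add_le_add ?_ ?_
    · have : ‖∏ i ∈ T, a i‖ ≤ 1 := by
        rw [norm_prod]
        exact Finset.prod_le_one (fun i _ => norm_nonneg _) fun i hi => ha i (mem_insert_of_mem hi)
      calc _ ≤ ‖a b - c b‖ * 1 := mul_le_mul_of_nonneg_left this (norm_nonneg _)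
        _ = _ := mul_one _
    · calc _ ≤ 1 * ‖∏ i ∈ T, a i - ∏ i ∈ T, c i‖ :=
            mul_le_mul_of_nonneg_right (hc b (mem_insert_self _ _)) (norm_nonneg _)
        _ = ‖∏ i ∈ T, a i - ∏ i ∈ T, c i‖ := one_mul _
        _ ≤ _ := ih

variable {ι β : Type*} [Fintype ι] [Fintype β] [DecidableEq β]

/-- The conditional block variance. -/
noncomputable def bvar (μ : Measure[mΩ] Ω) (m : MeasurableSpace Ω) (g : ι → ℝ) (r : ι → Ω → ℝ)
    (b : ι → β) (ω : Ω) : ℝ :=
  ∑ c : β, |(μ[fun ω => lL g r (sT b {c}) ω ^ 2 | m]) ω|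

/-- One row: conditional characteristic function against the Gaussian one. -/
theorem row_bound [IsProbabilityMeasure μ] {m : MeasurableSpace Ω} (hm : m ≤ mΩ) {g : ι → ℝ}
    {r : ι → Ω → ℝ} (hr : ∀ i, BM (mΩ := mΩ) (r i)) (hA : NP μ m r)
    (hc : ∀ i, μ[r i | m] =ᵐ[μ] 0) (b : ι → β) {η : ℝ} (hη : η ≤ 1)
    (hb : ∀ c ω, |lL g r (sT b {c}) ω| ≤ η) :
    ∫ ω, ‖(μ[fun ω => ei (∑ i, g i * r i ω) | m]) ω -
      ((Real.exp (-bvar μ m g r b ω / 2) : ℝ) : ℂ)‖ ∂μ ≤
      4 * cross μ g r b univ + η * ∑ c : β, ∫ ω, lL g r (sT b {c}) ω ^ 2 ∂μ := by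
  have hN := newman_blocks (μ := μ) (g := g) hm hr hA hc b (univ : Finset β)
  have hu : sT b (univ : Finset β) = univ := by simp [sT]
  rw [hu] at hN
  have hcl : ∀ c : β, μ[lL g r (sT b {c}) | m] =ᵐ[μ] 0 := by
    intro c
    have e : lL g r (sT b {c}) = ∑ i ∈ sT b {c}, (g i) • r i := by
      funext ω
      simp [lL, Finset.sum_apply]
    rw [e]
    have h1 := condExp_finsetSum (μ := μ) (s := sT b {c}) (f := fun i => (g i) • r i)
      (fun i _ => ((hr i).integrable (μ := μ)).smul _) m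
    refine h1.trans ?_
    have h3 : ∀ᵐ ω ∂μ, ∀ i ∈ sT b {c}, (μ[(g i) • r i | m]) ω = 0 := by
      refine (Finset.eventually_all (sT b {c}) (l := ae μ)
        (p := fun i ω => (μ[(g i) • r i | m]) ω = 0)).2 (fun i _ => ?_)
      filter_upwards [condExp_smul (μ := μ) (g i) (r i) m, hc i] with ω a b
      rw [a, Pi.smul_apply, b]
      simp
    filter_upwards [h3] with ω h
    rw [Finset.sum_apply, Pi.zero_apply]
    exact Finset.sum_eq_zero h
  have hi : ∀ s : Finset ι, Integrable (fun ω => ei (lL g r s ω)) μ := fun s =>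
    integrable_ei (bm_lL hr s).1
  have hT : ∀ᵐ ω ∂μ, ∀ c : β, ‖(μ[fun ω => ei (lL g r (sT b {c}) ω) | m]) ω -
      ((Real.exp (-|(μ[fun ω => lL g r (sT b {c}) ω ^ 2 | m]) ω| / 2) : ℝ) : ℂ)‖ ≤
      η * |(μ[fun ω => lL g r (sT b {c}) ω ^ 2 | m]) ω| :=
    ae_all_iff.2 fun c => taylor_block hm (bm_lL hr _).1 hη (hb c) (hcl c)
  have hO : ∀ᵐ ω ∂μ, ∀ c : β, ‖(μ[fun ω => ei (lL g r (sT b {c}) ω) | m]) ω‖ ≤ 1 :=
    ae_all_iff.2 fun c => norm_condExp_le_one hm (fun ω => (norm_ei _).le) (hi _)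
  have hP := integrable_prod_condExp (μ := μ) hm (univ : Finset β)
      (fun c ω => ei (lL g r (sT b {c}) ω)) (fun c ω => (norm_ei _).le) (fun c => hi _)
  have hd : Integrable (fun ω => ‖(μ[fun ω => ei (lL g r univ ω) | m]) ω -
        ∏ c : β, (μ[fun ω => ei (lL g r (sT b {c}) ω) | m]) ω‖) μ :=
      (integrable_condExp.sub hP).norm
  have hV : Integrable (fun ω => η * bvar μ m g r b ω) μ := by
    refine Integrable.const_mul ?_ _
    exact integrable_finsetSum _ fun c _ => integrable_condExp.abs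
  have hVint : ∫ ω, bvar μ m g r b ω ∂μ = ∑ c : β, ∫ ω, lL g r (sT b {c}) ω ^ 2 ∂μ := by
    unfold bvar
    rw [integral_finsetSum _ fun c _ => integrable_condExp.abs]
    refine Finset.sum_congr rfl fun c _ => ?_
    rw [← integral_condExp hm (f := fun ω => lL g r (sT b {c}) ω ^ 2)]
    refine integral_congr_ae ?_
    filter_upwards [condExp_nonneg (μ := μ) (m := m)
      (f := fun ω => lL g r (sT b {c}) ω ^ 2) (ae_of_all _ fun ω => sq_nonneg _)] with ω h
    exact abs_of_nonneg h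
  have e0 : (fun ω => ei (∑ i, g i * r i ω)) = fun ω => ei (lL g r univ ω) := rfl
  rw [e0]
  calc ∫ ω, ‖(μ[fun ω => ei (lL g r univ ω) | m]) ω -
      ((Real.exp (-bvar μ m g r b ω / 2) : ℝ) : ℂ)‖ ∂μ
      ≤ ∫ ω, (‖(μ[fun ω => ei (lL g r univ ω) | m]) ω -
        ∏ c : β, (μ[fun ω => ei (lL g r (sT b {c}) ω) | m]) ω‖ + η * bvar μ m g r b ω) ∂μ := by
        refine integral_mono_of_nonneg (ae_of_all _ fun ω => norm_nonneg _) (hd.add hV) ?_
        filter_upwards [hT, hO] with ω h1 h2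
        have e1 : ((Real.exp (-bvar μ m g r b ω / 2) : ℝ) : ℂ) =
            ∏ c : β, ((Real.exp (-|(μ[fun ω => lL g r (sT b {c}) ω ^ 2 | m]) ω| / 2) : ℝ) : ℂ) := by
          rw [← Complex.ofReal_prod, ← Real.exp_sum]
          congr 2
          unfold bvar
          rw [← Finset.sum_div, Finset.sum_neg_distrib]
        rw [e1]
        set A := (μ[fun ω => ei (lL g r univ ω) | m]) ω
        set B := ∏ c : β, (μ[fun ω => ei (lL g r (sT b {c}) ω) | m]) ω
        set D := ∏ c : β, ((Real.exp (-|(μ[fun ω => lL g r (sT b {c}) ω ^ 2 | m]) ω| / 2) : ℝ) : ℂ)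
        have : A - D = (A - B) + (B - D) := by ring
        rw [this]
        refine (norm_add_le _ _).trans (add_le_add le_rfl ?_)
        refine (norm_prod_sub_prod_le _ _ _ (fun c _ => h2 c) (fun c _ => ?_)).trans ?_
        · rw [Complex.norm_real, Real.norm_eq_abs, abs_of_pos (Real.exp_pos _),
            Real.exp_le_one_iff]
          have := abs_nonneg ((μ[fun ω => lL g r (sT b {c}) ω ^ 2 | m]) ω)
          linarith
        · unfold bvar
          rw [Finset.mul_sum]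
          exact Finset.sum_le_sum fun c _ => h1 c
    _ = ∫ ω, ‖(μ[fun ω => ei (lL g r univ ω) | m]) ω -
        ∏ c : β, (μ[fun ω => ei (lL g r (sT b {c}) ω) | m]) ω‖ ∂μ +
        η * ∑ c : β, ∫ ω, lL g r (sT b {c}) ω ^ 2 ∂μ := by
        rw [integral_add hd hV, integral_const_mul, hVint]
    _ ≤ _ := add_le_add hN le_rfl

/-- Central limit theorem for conditionally associated martingale differences: explicit bound
for the characteristic function. -/
theorem np_mart_clt [IsProbabilityMeasure μ] (F : ℕ → MeasurableSpace Ω) (hF : ∀ j, F j ≤ mΩ)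
    (hmono : Monotone F) (r : ℕ → ι → Ω → ℝ) (g : ℕ → ι → ℝ) (b : ι → β)
    (hrm : ∀ j i, Measurable[F (j + 1)] (r j i)) (C : ℝ) (hrb : ∀ j i ω, |r j i ω| ≤ C)
    (hA : ∀ j, NP μ (F j) (r j)) (hc : ∀ j i, μ[r j i | F j] =ᵐ[μ] 0)
    {η : ℝ} (hη : η ≤ 1) (hb : ∀ j c ω, |lL (g j) (r j) (sT b {c}) ω| ≤ η)
    (s : ℝ) (hs : 0 ≤ s) (J : ℕ) :
    ‖∫ ω, ei (∑ j ∈ range J, ∑ i, g j i * r j i ω) ∂μ - ((Real.exp (-s / 2) : ℝ) : ℂ)‖ ≤
      2 * ∑ j ∈ range J, (4 * cross μ (g j) (r j) b univ +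
        η * ∑ c : β, ∫ ω, lL (g j) (r j) (sT b {c}) ω ^ 2 ∂μ) +
      (s + 4) * ∫ ω, |∑ j ∈ range J, bvar μ (F j) (g j) (r j) b ω - s| ∂μ := by
  have hBM : ∀ j i, BM (mΩ := mΩ) (r j i) := fun j i =>
    ⟨(hrm j i).mono (hF _) le_rfl, C, hrb j i⟩
  have hmV : ∀ j, Measurable[F j] (bvar μ (F j) (g j) (r j) b) := by
    intro j
    unfold bvar
    refine Finset.measurable_sum _ fun c _ => ?_
    exact continuous_abs.measurable.comp stronglyMeasurable_condExp.measurable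
  have h := mart_clt (μ := μ) F hF hmono (fun j ω => ∑ i, g j i * r j i ω)
    (fun j => bvar μ (F j) (g j) (r j) b)
    (fun j => Finset.measurable_sum _ fun i _ => (hrm j i).const_mul _) hmV
    (fun j ω => Finset.sum_nonneg fun c _ => abs_nonneg _)
    (fun j => integrable_finsetSum _ fun c _ => integrable_condExp.abs) s hs J
  refine h.trans (add_le_add (mul_le_mul_of_nonneg_left (Finset.sum_le_sum fun j _ => ?_)
    (by norm_num)) le_rfl)
  exact row_bound (hF j) (hBM j) (hA j) (hc j) b hη (hb j)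

end Vale.Agent.P153.CLT
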