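import Vale.Agent.P153.CLT.Sq
import Vale.Agent.P153.TwoPt.Riemann

/-!
# P153, block D3: sums of local squares tend to a constant

`D i x` is the (bounded) increment of the height over one block of rows, `W i c` the square of the
increment summed over a block of `l` sites.  If the block squares have the same mean and
decorrelate along each row, then the weighted sums of squares converge to a constant.
-/

namespace Vale.Agent.P153.CLT

open MeasureTheory Filter Finset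
open scoped Topology ENNReal

variable {Ω : Type*} {mΩ : MeasurableSpace Ω} {μ : Measure Ω}

/-- Second moment of a weighted average along one row. -/
lemma row_second_moment [IsProbabilityMeasure μ] (W : ℤ → Ω → ℝ) (hWm : ∀ c, Measurable (W c))
    {B : ℝ} (hWb : ∀ c ω, |W c ω| ≤ B) {w : ℝ} (hw : ∀ c, ∫ ω, W c ω ∂μ = w) {ε : ℝ}
    (hε : 0 ≤ ε) {R : ℕ}
    (hdec : ∀ c c' : ℤ, (R : ℤ) ≤ |c - c'| → ∫ ω, W c ω * W c' ω ∂μ ≤ w ^ 2 + ε)
    (C : Finset ℤ) (a : ℤ → ℝ) {α : ℝ} (ha0 : ∀ c, 0 ≤ a c) (ha : ∀ c, a c ≤ α) :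
    ∫ ω, (∑ c ∈ C, a c * (W c ω - w)) ^ 2 ∂μ ≤
      α ^ 2 * (C.card * (2 * R + 1) * B ^ 2 + ε * C.card ^ 2) := by
  have hα : 0 ≤ α := (ha0 0).trans (ha 0)
  have hint : ∀ c, Integrable (W c) μ := fun c =>
    Integrable.of_bound (hWm c).aestronglyMeasurable B (ae_of_all _ (hWb c))
  have hB : 0 ≤ B := by
    obtain ⟨ω0⟩ : Nonempty Ω := by
      by_contra h
      rw [not_nonempty_iff] at h
      have h1 := measure_univ (μ := μ)
      rw [Set.univ_eq_empty_iff.2 h, measure_empty] at h1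
      exact zero_ne_one h1
    exact (abs_nonneg _).trans (hWb 0 ω0)
  have hint2 : ∀ c c', Integrable (fun ω => W c ω * W c' ω) μ := fun c c' =>
    Integrable.of_bound ((hWm c).mul (hWm c')).aestronglyMeasurable (B * B)
      (ae_of_all _ fun ω => by
        rw [Real.norm_eq_abs, abs_mul]
        exact mul_le_mul (hWb c ω) (hWb c' ω) (abs_nonneg _) hB)
  have hcov : ∀ c c', ∫ ω, (W c ω - w) * (W c' ω - w) ∂μ = ∫ ω, W c ω * W c' ω ∂μ - w ^ 2 := by
    intro c c'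
    have e : (fun ω => (W c ω - w) * (W c' ω - w)) =
        fun ω => W c ω * W c' ω - (w * W c ω + w * W c' ω) + w ^ 2 := by
      funext ω; ring
    have i1 : Integrable (fun ω => w * W c ω + w * W c' ω) μ :=
      ((hint c).const_mul w).add ((hint c').const_mul w)
    have i2 : Integrable (fun ω => W c ω * W c' ω - (w * W c ω + w * W c' ω)) μ :=
      (hint2 c c').sub i1
    have e3 : ∫ ω, (W c ω * W c' ω - (w * W c ω + w * W c' ω) + w ^ 2) ∂μ =
        ∫ ω, (W c ω * W c' ω - (w * W c ω + w * W c' ω)) ∂μ + ∫ _ω, w ^ 2 ∂μ :=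
      integral_add i2 (integrable_const _)
    have e4 : ∫ ω, (W c ω * W c' ω - (w * W c ω + w * W c' ω)) ∂μ =
        ∫ ω, W c ω * W c' ω ∂μ - ∫ ω, (w * W c ω + w * W c' ω) ∂μ :=
      integral_sub (hint2 c c') i1
    have e5 : ∫ ω, (w * W c ω + w * W c' ω) ∂μ = ∫ ω, w * W c ω ∂μ + ∫ ω, w * W c' ω ∂μ :=
      integral_add ((hint c).const_mul w) ((hint c').const_mul w)
    rw [e, e3, e4, e5, integral_const_mul, integral_const_mul, hw, hw, integral_const]
    simp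
    ring
  have hint3 : ∀ c c', Integrable (fun ω => (W c ω - w) * (W c' ω - w)) μ := by
    intro c c'
    have e : (fun ω => (W c ω - w) * (W c' ω - w)) =
        fun ω => W c ω * W c' ω - (w * W c ω + w * W c' ω) + w ^ 2 := by
      funext ω; ring
    rw [e]
    exact ((hint2 c c').sub (((hint c).const_mul w).add ((hint c').const_mul w))).add
      (integrable_const _)
  have e1 : ∫ ω, (∑ c ∈ C, a c * (W c ω - w)) ^ 2 ∂μ =
      ∑ c ∈ C, ∑ c' ∈ C, a c * a c' * (∫ ω, W c ω * W c' ω ∂μ - w ^ 2) := by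
    have e2 : (fun ω => (∑ c ∈ C, a c * (W c ω - w)) ^ 2) =
        fun ω => ∑ c ∈ C, ∑ c' ∈ C, a c * a c' * ((W c ω - w) * (W c' ω - w)) := by
      funext ω
      rw [sq, Finset.sum_mul_sum]
      refine Finset.sum_congr rfl fun c _ => Finset.sum_congr rfl fun c' _ => ?_
      ring
    rw [e2, integral_finsetSum _ fun c _ => integrable_finsetSum _ fun c' _ =>
      (hint3 c c').const_mul _]
    refine Finset.sum_congr rfl fun c _ => ?_
    rw [integral_finsetSum _ fun c' _ => (hint3 c c').const_mul _]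
    refine Finset.sum_congr rfl fun c' _ => ?_
    rw [integral_const_mul, hcov]
  rw [e1]
  have hb : ∀ c c', ∫ ω, W c ω * W c' ω ∂μ - w ^ 2 ≤ B ^ 2 := by
    intro c c'
    have h1 : ∫ ω, W c ω * W c' ω ∂μ ≤ ∫ _ω, B ^ 2 ∂μ := by
      refine integral_mono (hint2 c c') (integrable_const _) fun ω => ?_
      have h2 := mul_le_mul (hWb c ω) (hWb c' ω) (abs_nonneg _) hB
      calc W c ω * W c' ω ≤ |W c ω * W c' ω| := le_abs_self _
        _ = |W c ω| * |W c' ω| := abs_mul _ _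
        _ ≤ B * B := h2
        _ = B ^ 2 := (sq B).symm
    rw [integral_const] at h1
    simp at h1
    nlinarith [sq_nonneg w]
  have hrow : ∀ c ∈ C, ∑ c' ∈ C, a c * a c' * (∫ ω, W c ω * W c' ω ∂μ - w ^ 2) ≤
      α ^ 2 * ((2 * R + 1) * B ^ 2 + ε * C.card) := by
    intro c hc
    have h1 : ∀ c' ∈ C, a c * a c' * (∫ ω, W c ω * W c' ω ∂μ - w ^ 2) ≤
        (if c' ∈ Finset.Icc (c - R) (c + R) then α ^ 2 * B ^ 2 else 0) + α ^ 2 * ε := by
      intro c' _
      have haa : 0 ≤ a c * a c' := mul_nonneg (ha0 _) (ha0 _)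
      have haa2 : a c * a c' ≤ α ^ 2 := by
        rw [sq]; exact mul_le_mul (ha _) (ha _) (ha0 _) hα
      split_ifs with hcc
      · have h3 : a c * a c' * (∫ ω, W c ω * W c' ω ∂μ - w ^ 2) ≤ a c * a c' * B ^ 2 :=
          mul_le_mul_of_nonneg_left (hb c c') haa
        have h4 : a c * a c' * B ^ 2 ≤ α ^ 2 * B ^ 2 :=
          mul_le_mul_of_nonneg_right haa2 (sq_nonneg _)
        have h5 : 0 ≤ α ^ 2 * ε := mul_nonneg (sq_nonneg _) hε
        linarith
      · have h6 : (R : ℤ) ≤ |c - c'| := by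
          by_contra h7
          rw [not_le, abs_lt] at h7
          exact hcc (Finset.mem_Icc.2 ⟨by linarith, by linarith⟩)
        have h8 : ∫ ω, W c ω * W c' ω ∂μ - w ^ 2 ≤ ε := by linarith [hdec c c' h6]
        calc a c * a c' * (∫ ω, W c ω * W c' ω ∂μ - w ^ 2) ≤ a c * a c' * ε :=
              mul_le_mul_of_nonneg_left h8 haa
          _ ≤ α ^ 2 * ε := mul_le_mul_of_nonneg_right haa2 hε
          _ = 0 + α ^ 2 * ε := by ring
    refine (Finset.sum_le_sum h1).trans ?_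
    rw [Finset.sum_add_distrib, Finset.sum_const, ← Finset.sum_filter, Finset.sum_const]
    have h9 : ((C.filter fun c' => c' ∈ Finset.Icc (c - R) (c + R)).card : ℝ) ≤ 2 * R + 1 := by
      have h10 : (C.filter fun c' => c' ∈ Finset.Icc (c - R) (c + R)) ⊆
          Finset.Icc (c - R) (c + R) := fun x hx => (Finset.mem_filter.1 hx).2
      have h11 := Finset.card_le_card h10
      rw [Int.card_Icc] at h11
      have h12 : (c + R + 1 - (c - R)).toNat = 2 * R + 1 := by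
        have : c + R + 1 - (c - R) = ((2 * R + 1 : ℕ) : ℤ) := by push_cast; ring
        rw [this, Int.toNat_natCast]
      rw [h12] at h11
      exact_mod_cast h11
    rw [nsmul_eq_mul, nsmul_eq_mul]
    have h13 : 0 ≤ α ^ 2 * B ^ 2 := by positivity
    nlinarith [mul_le_mul_of_nonneg_right h9 h13]
  refine (Finset.sum_le_sum hrow).trans ?_
  rw [Finset.sum_const, nsmul_eq_mul]
  refine le_of_eq ?_
  ring

lemma nonempty_of_prob [IsProbabilityMeasure μ] : Nonempty Ω := by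
  by_contra h
  rw [not_nonempty_iff] at h
  have h1 := measure_univ (μ := μ)
  rw [Set.univ_eq_empty_iff.2 h, measure_empty] at h1
  exact zero_ne_one h1

/-- The sum over a block of `l` sites. -/
noncomputable def blk (D : ℤ → ℤ → Ω → ℝ) (l : ℕ) (i c : ℤ) (ω : Ω) : ℝ :=
  ∑ x ∈ Finset.Ico (c * l) (c * l + l), D i x ω

/-- Weighted squares of block sums: explicit bound. `p i x` are the weights of the sites, `q i c`
those of the blocks. -/
theorem loc_bound [IsProbabilityMeasure μ] (D : ℤ → ℤ → Ω → ℝ) (hDm : ∀ i x, Measurable (D i x))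
    {A : ℝ} (hDb : ∀ i x ω, |D i x ω| ≤ A) (l : ℕ) {w : ℝ}
    (hw : ∀ i c : ℤ, ∫ ω, (blk D l i c ω) ^ 2 ∂μ = w) {ε : ℝ} (hε : 0 ≤ ε) {R : ℕ}
    (hdec : ∀ i c c' : ℤ, (R : ℤ) ≤ |c - c'| →
      ∫ ω, (blk D l i c ω) ^ 2 * (blk D l i c' ω) ^ 2 ∂μ ≤ w ^ 2 + ε)
    (p q : ℤ → ℤ → ℝ) {η P : ℝ} (hp : ∀ i x, |p i x| ≤ P) (hq : ∀ i c, |q i c| ≤ P)
    (hpq : ∀ i c : ℤ, ∀ x ∈ Finset.Ico (c * l) (c * l + l), |p i x - q i c| ≤ η)
    (I C : Finset ℤ) (s : ℝ) :
    ∫ ω, |∑ i ∈ I, ∑ c ∈ C, (∑ x ∈ Finset.Ico (c * l) (c * l + l), p i x * D i x ω) ^ 2 - s| ∂μ ≤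
      I.card * (C.card * (2 * (l * A) ^ 2 * P * η)) +
      I.card * Real.sqrt ((P ^ 2) ^ 2 * (C.card * (2 * R + 1) * ((l * A) ^ 2) ^ 2 +
        ε * C.card ^ 2)) +
      |∑ i ∈ I, ∑ c ∈ C, q i c ^ 2 * w - s| := by
  obtain ⟨ω0⟩ := nonempty_of_prob (μ := μ)
  have hA : 0 ≤ A := (abs_nonneg _).trans (hDb 0 0 ω0)
  have hP : 0 ≤ P := (abs_nonneg _).trans (hp 0 0)
  have hcard : ∀ c : ℤ, (Finset.Ico (c * l) (c * l + l)).card = l := by
    intro c
    rw [Int.card_Ico]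
    simp
  have hblkm : ∀ i c, Measurable (blk D l i c) := fun i c =>
    Finset.measurable_sum _ fun x _ => hDm i x
  have hblk : ∀ i c ω, |blk D l i c ω| ≤ l * A := by
    intro i c ω
    refine (Finset.abs_sum_le_sum_abs _ _).trans ?_
    refine (Finset.sum_le_sum fun x _ => hDb i x ω).trans ?_
    rw [Finset.sum_const, hcard, nsmul_eq_mul]
  have hWb : ∀ i c ω, |(blk D l i c ω) ^ 2| ≤ (l * A) ^ 2 := by
    intro i c ω
    rw [abs_pow]
    exact pow_le_pow_left₀ (abs_nonneg _) (hblk i c ω) 2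
  -- the block with the exact weights
  set U : ℤ → ℤ → Ω → ℝ := fun i c ω =>
    ∑ x ∈ Finset.Ico (c * l) (c * l + l), p i x * D i x ω with hU
  have hUm : ∀ i c, Measurable (U i c) := fun i c =>
    Finset.measurable_sum _ fun x _ => (hDm i x).const_mul _
  have hUb : ∀ i c ω, |U i c ω| ≤ l * A * P := by
    intro i c ω
    refine (Finset.abs_sum_le_sum_abs _ _).trans ?_
    refine (Finset.sum_le_sum (g := fun _ => A * P) fun x _ => ?_).trans ?_
    · rw [abs_mul, mul_comm]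
      exact mul_le_mul (hDb i x ω) (hp i x) (abs_nonneg _) hA
    · rw [Finset.sum_const, hcard, nsmul_eq_mul]
      exact le_of_eq (by ring)
  have hdiff : ∀ i c ω, |U i c ω - q i c * blk D l i c ω| ≤ l * A * η := by
    intro i c ω
    have e : U i c ω - q i c * blk D l i c ω =
        ∑ x ∈ Finset.Ico (c * l) (c * l + l), (p i x - q i c) * D i x ω := by
      rw [hU, blk, Finset.mul_sum, ← Finset.sum_sub_distrib]
      exact Finset.sum_congr rfl fun x _ => by ring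
    rw [e]
    refine (Finset.abs_sum_le_sum_abs _ _).trans ?_
    refine (Finset.sum_le_sum (g := fun _ => η * A) fun x hx => ?_).trans ?_
    · rw [abs_mul]
      exact mul_le_mul (hpq i c x hx) (hDb i x ω) (abs_nonneg _)
        ((abs_nonneg _).trans (hpq i c x hx))
    · rw [Finset.sum_const, hcard, nsmul_eq_mul]
      exact le_of_eq (by ring)
  have hsq : ∀ i c ω, |U i c ω ^ 2 - q i c ^ 2 * (blk D l i c ω) ^ 2| ≤
      2 * (l * A) ^ 2 * P * η := by
    intro i c ω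
    have e : U i c ω ^ 2 - q i c ^ 2 * (blk D l i c ω) ^ 2 =
        (U i c ω - q i c * blk D l i c ω) * (U i c ω + q i c * blk D l i c ω) := by ring
    rw [e, abs_mul]
    have h1 : |U i c ω + q i c * blk D l i c ω| ≤ 2 * (l * A * P) := by
      refine (abs_add_le _ _).trans ?_
      have h2 : |q i c * blk D l i c ω| ≤ l * A * P := by
        rw [abs_mul, mul_comm]
        exact mul_le_mul (hblk i c ω) (hq i c) (abs_nonneg _) (by positivity)
      linarith [hUb i c ω]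
    have h3 := mul_le_mul (hdiff i c ω) h1 (abs_nonneg _)
      ((abs_nonneg _).trans (hdiff i c ω))
    refine h3.trans (le_of_eq ?_)
    ring
  -- integrability
  have hWi : ∀ i c, Integrable (fun ω => (blk D l i c ω) ^ 2) μ := fun i c =>
    Integrable.of_bound ((hblkm i c).pow_const 2).aestronglyMeasurable _ (ae_of_all _ (hWb i c))
  have hrowi : ∀ i, Integrable (fun ω => ∑ c ∈ C, q i c ^ 2 * ((blk D l i c ω) ^ 2 - w)) μ :=
    fun i => integrable_finsetSum _ fun c _ => ((hWi i c).sub (integrable_const _)).const_mul _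
  have hrow2 : ∀ i, MemLp (fun ω => ∑ c ∈ C, q i c ^ 2 * ((blk D l i c ω) ^ 2 - w)) 2 μ := by
    intro i
    refine memLp_finsetSum _ fun c _ => ?_
    refine MemLp.const_mul ?_ _
    refine MemLp.sub ?_ (memLp_const _)
    exact MemLp.of_bound ((hblkm i c).pow_const 2).aestronglyMeasurable _ (ae_of_all _ (hWb i c))
  have hpt : ∀ ω, |∑ i ∈ I, ∑ c ∈ C, U i c ω ^ 2 - s| ≤
      I.card * (C.card * (2 * (l * A) ^ 2 * P * η)) +
      ∑ i ∈ I, |∑ c ∈ C, q i c ^ 2 * ((blk D l i c ω) ^ 2 - w)| +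
      |∑ i ∈ I, ∑ c ∈ C, q i c ^ 2 * w - s| := by
    intro ω
    have e : ∑ i ∈ I, ∑ c ∈ C, U i c ω ^ 2 - s =
        ∑ i ∈ I, ∑ c ∈ C, (U i c ω ^ 2 - q i c ^ 2 * (blk D l i c ω) ^ 2) +
        ∑ i ∈ I, ∑ c ∈ C, q i c ^ 2 * ((blk D l i c ω) ^ 2 - w) +
        (∑ i ∈ I, ∑ c ∈ C, q i c ^ 2 * w - s) := by
      simp only [mul_sub, Finset.sum_sub_distrib]
      ring
    rw [e]
    refine (abs_add_le _ _).trans (add_le_add ?_ le_rfl)
    refine (abs_add_le _ _).trans (add_le_add ?_ (Finset.abs_sum_le_sum_abs _ _))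
    refine (Finset.abs_sum_le_sum_abs _ _).trans ?_
    have h1 : ∀ i ∈ I, |∑ c ∈ C, (U i c ω ^ 2 - q i c ^ 2 * (blk D l i c ω) ^ 2)| ≤
        C.card * (2 * (l * A) ^ 2 * P * η) := by
      intro i _
      refine (Finset.abs_sum_le_sum_abs _ _).trans ?_
      refine (Finset.sum_le_sum fun c _ => hsq i c ω).trans ?_
      rw [Finset.sum_const, nsmul_eq_mul]
    refine (Finset.sum_le_sum h1).trans ?_
    rw [Finset.sum_const, nsmul_eq_mul]
  have hrowb : ∀ i, ∫ ω, |∑ c ∈ C, q i c ^ 2 * ((blk D l i c ω) ^ 2 - w)| ∂μ ≤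
      Real.sqrt ((P ^ 2) ^ 2 * (C.card * (2 * R + 1) * ((l * A) ^ 2) ^ 2 + ε * C.card ^ 2)) := by
    intro i
    refine integral_abs_le_sqrt (hrow2 i) ?_
    refine row_second_moment (fun c ω => (blk D l i c ω) ^ 2) (fun c => (hblkm i c).pow_const 2)
      (hWb i) (hw i) hε (hdec i) C (fun c => q i c ^ 2) (fun c => sq_nonneg _) fun c => ?_
    rw [← sq_abs]
    exact pow_le_pow_left₀ (abs_nonneg _) (hq i c) 2
  have hUi : Integrable (fun ω => |∑ i ∈ I, ∑ c ∈ C, U i c ω ^ 2 - s|) μ := by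
    refine (Integrable.sub ?_ (integrable_const s)).abs
    refine integrable_finsetSum _ fun i _ => integrable_finsetSum _ fun c _ => ?_
    refine Integrable.of_bound ((hUm i c).pow_const 2).aestronglyMeasurable ((l * A * P) ^ 2)
      (ae_of_all _ fun ω => ?_)
    rw [Real.norm_eq_abs, abs_pow]
    exact pow_le_pow_left₀ (abs_nonneg _) (hUb i c ω) 2
  have i1 : Integrable (fun ω => ∑ i ∈ I, |∑ c ∈ C, q i c ^ 2 * ((blk D l i c ω) ^ 2 - w)|) μ :=
    integrable_finsetSum _ fun i _ => (hrowi i).abs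
  calc ∫ ω, |∑ i ∈ I, ∑ c ∈ C, U i c ω ^ 2 - s| ∂μ
      ≤ ∫ ω, (I.card * (C.card * (2 * (l * A) ^ 2 * P * η)) +
          ∑ i ∈ I, |∑ c ∈ C, q i c ^ 2 * ((blk D l i c ω) ^ 2 - w)| +
          |∑ i ∈ I, ∑ c ∈ C, q i c ^ 2 * w - s|) ∂μ :=
        integral_mono hUi (((integrable_const _).add i1).add (integrable_const _)) hpt
    _ = I.card * (C.card * (2 * (l * A) ^ 2 * P * η)) +
          ∑ i ∈ I, ∫ ω, |∑ c ∈ C, q i c ^ 2 * ((blk D l i c ω) ^ 2 - w)| ∂μ +
          |∑ i ∈ I, ∑ c ∈ C, q i c ^ 2 * w - s| := by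
        have e1 : ∫ ω, (I.card * (C.card * (2 * (l * A) ^ 2 * P * η)) +
            ∑ i ∈ I, |∑ c ∈ C, q i c ^ 2 * ((blk D l i c ω) ^ 2 - w)| +
            |∑ i ∈ I, ∑ c ∈ C, q i c ^ 2 * w - s|) ∂μ =
            ∫ ω, (I.card * (C.card * (2 * (l * A) ^ 2 * P * η)) +
            ∑ i ∈ I, |∑ c ∈ C, q i c ^ 2 * ((blk D l i c ω) ^ 2 - w)|) ∂μ +
            ∫ _ω, |∑ i ∈ I, ∑ c ∈ C, q i c ^ 2 * w - s| ∂μ :=
          integral_add ((integrable_const _).add i1) (integrable_const _)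
        have e2 : ∫ ω, (I.card * (C.card * (2 * (l * A) ^ 2 * P * η)) +
            ∑ i ∈ I, |∑ c ∈ C, q i c ^ 2 * ((blk D l i c ω) ^ 2 - w)|) ∂μ =
            ∫ _ω, (I.card * (C.card * (2 * (l * A) ^ 2 * P * η)) : ℝ) ∂μ +
            ∫ ω, ∑ i ∈ I, |∑ c ∈ C, q i c ^ 2 * ((blk D l i c ω) ^ 2 - w)| ∂μ :=
          integral_add (integrable_const _) i1
        rw [e1, e2, integral_finsetSum _ fun i _ => (hrowi i).abs, integral_const,
          integral_const]
        simp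
    _ ≤ _ := by
        refine add_le_add (add_le_add le_rfl ?_) le_rfl
        refine (Finset.sum_le_sum fun i _ => hrowb i).trans ?_
        rw [Finset.sum_const, nsmul_eq_mul]

/-- The deterministic sum of the local means. -/
lemma riemann_sq (l K : ℕ) (hl : 0 < l) (hK : 0 < K) (w : ℝ)
    (g : ℝ × ℝ → ℝ) (hg : Continuous g) (hgc : HasCompactSupport g)
    (L : ℕ → ℝ) (hL0 : ∀ n, 0 < L n) (hL : Tendsto L atTop atTop)
    (I C : ℕ → Finset ℤ)
    (hI : ∀ n, ∀ i : ℤ, i ∉ I n → ∀ y : ℝ, g ((i : ℝ) * K / L n, y) = 0)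
    (hC : ∀ n, ∀ c : ℤ, c ∉ C n → ∀ t : ℝ, g (t, (c : ℝ) * l / L n) = 0) :
    Tendsto (fun n => ∑ i ∈ I n, ∑ c ∈ C n,
      ((L n)⁻¹ * g ((i : ℝ) * K / L n, (c : ℝ) * l / L n)) ^ 2 * w) atTop
      (𝓝 (w / (K * l) * ∫ z, g z ^ 2)) := by
  have hl' : (0 : ℝ) < l := by exact_mod_cast hl
  have hK' : (0 : ℝ) < K := by exact_mod_cast hK
  have hα0 : Tendsto (fun n => (K : ℝ) / L n) atTop (𝓝 0) :=
    Tendsto.div_atTop tendsto_const_nhds hL
  have hβ0 : Tendsto (fun n => (l : ℝ) / L n) atTop (𝓝 0) :=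
    Tendsto.div_atTop tendsto_const_nhds hL
  have hr := TwoPt.riemann2 (fun z => g z ^ 2) (hg.pow 2)
    (by
      refine hgc.comp_left (g := fun y : ℝ => y ^ 2) ?_
      simp)
    (fun n => (K : ℝ) / L n) (fun n => (l : ℝ) / L n) (fun n => div_pos hK' (hL0 n))
    (fun n => div_pos hl' (hL0 n)) hα0 hβ0 (fun n => I n ×ˢ C n) (by
      intro n z hz
      have e1 : (z.1 : ℝ) * ((K : ℝ) / L n) = (z.1 : ℝ) * K / L n := by ring
      have e2 : (z.2 : ℝ) * ((l : ℝ) / L n) = (z.2 : ℝ) * l / L n := by ring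
      simp only [e1, e2]
      rw [Finset.mem_product, not_and_or] at hz
      rcases hz with hz | hz
      · rw [hI n z.1 hz]; simp
      · rw [hC n z.2 hz]; simp)
  have hr2 := hr.const_mul (w / (K * l))
  refine hr2.congr fun n => ?_
  rw [Finset.sum_product, smul_eq_mul, Finset.mul_sum, Finset.mul_sum]
  refine Finset.sum_congr rfl fun i _ => ?_
  rw [Finset.mul_sum, Finset.mul_sum]
  refine Finset.sum_congr rfl fun c _ => ?_
  have e1 : (i : ℝ) * ((K : ℝ) / L n) = (i : ℝ) * K / L n := by ring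
  have e2 : (c : ℝ) * ((l : ℝ) / L n) = (c : ℝ) * l / L n := by ring
  rw [e1, e2]
  have h0 := (hL0 n).ne'
  field_simp

lemma term1_le {nI nC L M lA G e η : ℝ} (hL : 0 < L) (hM : 0 ≤ M) (hG : 0 ≤ G) (he : 0 < e)
    (hnI : nI ≤ M * L) (hnC0 : 0 ≤ nC) (hnC : nC ≤ M * L)
    (hη : η = e / (4 * (4 * M ^ 2 * lA ^ 2 * (G + 1) + 1))) :
    nI * (nC * (2 * lA ^ 2 * ((G + 1) / L) * (2 * η / L))) ≤ e / 4 := by
  set Q1 : ℝ := 4 * M ^ 2 * lA ^ 2 * (G + 1) with hQ1
  have hQ1' : 0 ≤ Q1 := by positivity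
  have hη0 : 0 < η := by rw [hη]; positivity
  have hX : 0 ≤ 2 * lA ^ 2 * ((G + 1) / L) * (2 * η / L) := by positivity
  have h5 : nI * (nC * (2 * lA ^ 2 * ((G + 1) / L) * (2 * η / L))) ≤
      (M * L) * ((M * L) * (2 * lA ^ 2 * ((G + 1) / L) * (2 * η / L))) := by
    have h51 : nC * (2 * lA ^ 2 * ((G + 1) / L) * (2 * η / L)) ≤
        (M * L) * (2 * lA ^ 2 * ((G + 1) / L) * (2 * η / L)) :=
      mul_le_mul_of_nonneg_right hnC hX
    exact mul_le_mul hnI h51 (mul_nonneg hnC0 hX) (by positivity)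
  have h6 : (M * L) * ((M * L) * (2 * lA ^ 2 * ((G + 1) / L) * (2 * η / L))) = Q1 * η := by
    rw [hQ1]
    have h0 := hL.ne'
    field_simp
    ring
  rw [h6] at h5
  refine h5.trans ?_
  rw [hη, ← mul_div_assoc, div_le_div_iff₀ (by positivity) (by norm_num)]
  nlinarith

lemma term2_le {nI nC L M B G e θ ε r : ℝ} (hL : 0 < L) (hM : 0 ≤ M) (hG : 0 ≤ G) (he : 0 < e)
    (hr : 0 ≤ r) (hB : 0 ≤ B)
    (hnI : nI ≤ M * L) (hnC0 : 0 ≤ nC) (hnC : nC ≤ M * L)
    (hθ : θ = (e / (4 * (M * (G + 1) ^ 2 + 1))) ^ 2 / 2) (hε : ε = θ / (M ^ 2 + 1))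
    (h3 : M * r * B / L < θ) :
    nI * Real.sqrt ((((G + 1) / L) ^ 2) ^ 2 * (nC * r * B + ε * nC ^ 2)) ≤ e / 4 := by
  set Q2 : ℝ := M * (G + 1) ^ 2 with hQ2
  have hQ2' : 0 ≤ Q2 := by positivity
  have hθ0 : 0 < θ := by rw [hθ]; positivity
  have hε0 : 0 < ε := by rw [hε]; positivity
  have h5 : (((G + 1) / L) ^ 2) ^ 2 * (nC * r * B + ε * nC ^ 2) ≤
      (((G + 1) ^ 2 / L) * (e / (4 * (Q2 + 1)))) ^ 2 := by
    have h6 : (((G + 1) / L) ^ 2) ^ 2 * (nC * r * B + ε * nC ^ 2) ≤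
        (((G + 1) / L) ^ 2) ^ 2 * ((M * L) * r * B + ε * (M * L) ^ 2) := by
      gcongr
    refine h6.trans ?_
    have h7 : (((G + 1) / L) ^ 2) ^ 2 * ((M * L) * r * B + ε * (M * L) ^ 2) =
        ((G + 1) ^ 2 / L) ^ 2 * (M * r * B / L + ε * M ^ 2) := by
      have h0 := hL.ne'
      field_simp
    rw [h7, mul_pow]
    have h8 : ε * M ^ 2 ≤ θ := by
      rw [hε, div_mul_eq_mul_div, div_le_iff₀ (by positivity)]
      nlinarith
    have h9 : M * r * B / L + ε * M ^ 2 ≤ (e / (4 * (Q2 + 1))) ^ 2 := by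
      have h10 : θ + θ = (e / (4 * (Q2 + 1))) ^ 2 := by rw [hθ]; ring
      linarith
    exact mul_le_mul_of_nonneg_left h9 (sq_nonneg _)
  have h11 := Real.sqrt_le_sqrt h5
  rw [Real.sqrt_sq (by positivity)] at h11
  have h12 : nI * Real.sqrt ((((G + 1) / L) ^ 2) ^ 2 * (nC * r * B + ε * nC ^ 2)) ≤
      (M * L) * (((G + 1) ^ 2 / L) * (e / (4 * (Q2 + 1)))) :=
    mul_le_mul hnI h11 (Real.sqrt_nonneg _) (by positivity)
  have h13 : (M * L) * (((G + 1) ^ 2 / L) * (e / (4 * (Q2 + 1)))) =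
      Q2 * (e / (4 * (Q2 + 1))) := by
    rw [hQ2]
    have h0 := hL.ne'
    field_simp
  rw [h13] at h12
  refine h12.trans ?_
  rw [← mul_div_assoc, div_le_div_iff₀ (by positivity) (by norm_num)]
  nlinarith

/-- **Local squares tend to a constant.**  `D i x` are bounded increments whose block squares have
the same mean `w` and decorrelate along each row; `p n i x` are weights which, up to `o(1 / L n)`,
are `(L n)⁻¹ g (i K / L n, x / L n)` with `g` continuous of compact support. -/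
theorem local_squares [IsProbabilityMeasure μ] (D : ℤ → ℤ → Ω → ℝ)
    (hDm : ∀ i x, Measurable (D i x)) {A : ℝ} (hDb : ∀ i x ω, |D i x ω| ≤ A)
    (l K : ℕ) (hl : 0 < l) (hK : 0 < K) {w : ℝ}
    (hw : ∀ i c : ℤ, ∫ ω, (blk D l i c ω) ^ 2 ∂μ = w)
    (hdec : ∀ ε : ℝ, 0 < ε → ∃ R : ℕ, ∀ i c c' : ℤ, (R : ℤ) ≤ |c - c'| →
      ∫ ω, (blk D l i c ω) ^ 2 * (blk D l i c' ω) ^ 2 ∂μ ≤ w ^ 2 + ε)
    (g : ℝ × ℝ → ℝ) (hg : Continuous g) (hgc : HasCompactSupport g)
    (L : ℕ → ℝ) (hL0 : ∀ n, 0 < L n) (hL : Tendsto L atTop atTop)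
    (I C : ℕ → Finset ℤ) {M : ℝ} (hIM : ∀ n, ((I n).card : ℝ) ≤ M * L n)
    (hCM : ∀ n, ((C n).card : ℝ) ≤ M * L n)
    (hI : ∀ n, ∀ i : ℤ, i ∉ I n → ∀ y : ℝ, g ((i : ℝ) * K / L n, y) = 0)
    (hC : ∀ n, ∀ c : ℤ, c ∉ C n → ∀ t : ℝ, g (t, (c : ℝ) * l / L n) = 0)
    (p : ℕ → ℤ → ℤ → ℝ) (δ : ℕ → ℝ) (hδ : Tendsto δ atTop (𝓝 0))
    (hp : ∀ n, ∀ i x : ℤ, |p n i x - (L n)⁻¹ * g ((i : ℝ) * K / L n, (x : ℝ) / L n)| ≤
      δ n / L n) :
    Tendsto (fun n => ∫ ω, |∑ i ∈ I n, ∑ c ∈ C n,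
      (∑ x ∈ Finset.Ico (c * l) (c * l + l), p n i x * D i x ω) ^ 2 -
        w / (K * l) * ∫ z, g z ^ 2| ∂μ) atTop (𝓝 0) := by
  obtain ⟨ω0⟩ := nonempty_of_prob (μ := μ)
  have hA : 0 ≤ A := (abs_nonneg _).trans (hDb 0 0 ω0)
  obtain ⟨G, hG⟩ := hgc.exists_bound_of_continuous hg
  have hG0 : 0 ≤ G := (norm_nonneg _).trans (hG 0)
  have hM : 0 ≤ M := by
    by_contra h
    push Not at h
    have h1 := hIM 0
    have h2 : M * L 0 < 0 := mul_neg_of_neg_of_pos h (hL0 0)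
    have h3 : (0 : ℝ) ≤ ((I 0).card : ℝ) := Nat.cast_nonneg _
    linarith
  have huc := hgc.uniformContinuous_of_continuous hg
  -- the deterministic term
  have hT3 := riemann_sq l K hl hK w g hg hgc L hL0 hL I C hI hC
  -- the estimate
  have key : ∀ e : ℝ, 0 < e → ∀ᶠ n in atTop, ∫ ω, |∑ i ∈ I n, ∑ c ∈ C n,
      (∑ x ∈ Finset.Ico (c * l) (c * l + l), p n i x * D i x ω) ^ 2 -
        w / (K * l) * ∫ z, g z ^ 2| ∂μ < e := by
    intro e he
    -- constants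
    obtain ⟨η, hη⟩ : ∃ η, η = e / (4 * (4 * M ^ 2 * (l * A) ^ 2 * (G + 1) + 1)) := ⟨_, rfl⟩
    have hη0 : 0 < η := by rw [hη]; positivity
    obtain ⟨θ, hθ⟩ : ∃ θ, θ = (e / (4 * (M * (G + 1) ^ 2 + 1))) ^ 2 / 2 := ⟨_, rfl⟩
    have hθ0 : 0 < θ := by rw [hθ]; positivity
    obtain ⟨ε, hε⟩ : ∃ ε, ε = θ / (M ^ 2 + 1) := ⟨_, rfl⟩
    have hε0 : 0 < ε := by rw [hε]; positivity
    obtain ⟨R, hR⟩ := hdec ε hε0
    obtain ⟨d, hd, hdg⟩ := Metric.uniformContinuous_iff.1 huc η hη0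
    have hev1 : ∀ᶠ n in atTop, δ n < min η 1 :=
      hδ.eventually (gt_mem_nhds (lt_min hη0 one_pos))
    have hev2 : ∀ᶠ n in atTop, (l : ℝ) / L n < d := by
      have : Tendsto (fun n => (l : ℝ) / L n) atTop (𝓝 0) :=
        Tendsto.div_atTop tendsto_const_nhds hL
      exact this.eventually (gt_mem_nhds hd)
    have hev3 : ∀ᶠ n in atTop, M * (2 * R + 1) * ((l * A) ^ 2) ^ 2 / L n < θ := by
      have : Tendsto (fun n => M * (2 * R + 1) * ((l * A) ^ 2) ^ 2 / L n) atTop (𝓝 0) :=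
        Tendsto.div_atTop tendsto_const_nhds hL
      exact this.eventually (gt_mem_nhds hθ0)
    have hev4 : ∀ᶠ n in atTop, |∑ i ∈ I n, ∑ c ∈ C n,
        ((L n)⁻¹ * g ((i : ℝ) * K / L n, (c : ℝ) * l / L n)) ^ 2 * w -
        w / (K * l) * ∫ z, g z ^ 2| < e / 4 := by
      have h1 := Metric.tendsto_nhds.1 hT3 (e / 4) (by positivity)
      filter_upwards [h1] with n hn
      rwa [Real.dist_eq] at hn
    filter_upwards [hev1, hev2, hev3, hev4] with n h1 h2 h3 h4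
    have hLn := hL0 n
    have hδη : δ n ≤ η := h1.le.trans (min_le_left _ _)
    have hδ1 : δ n ≤ 1 := h1.le.trans (min_le_right _ _)
    have hgabs : ∀ z, |(L n)⁻¹ * g z| ≤ G / L n := by
      intro z
      rw [abs_mul, abs_of_pos (inv_pos.2 hLn), div_eq_inv_mul]
      exact mul_le_mul_of_nonneg_left (hG z) (inv_pos.2 hLn).le
    have hGP : G / L n ≤ (G + 1) / L n := by
      gcongr; linarith
    have hpP : ∀ i x, |p n i x| ≤ (G + 1) / L n := by
      intro i x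
      have h5 := hp n i x
      have h6 := hgabs ((i : ℝ) * K / L n, (x : ℝ) / L n)
      have h7 : δ n / L n ≤ 1 / L n := by gcongr
      have h8 : |p n i x| ≤ |p n i x - (L n)⁻¹ * g ((i : ℝ) * K / L n, (x : ℝ) / L n)| +
          |(L n)⁻¹ * g ((i : ℝ) * K / L n, (x : ℝ) / L n)| := by
        have := abs_add_le (p n i x - (L n)⁻¹ * g ((i : ℝ) * K / L n, (x : ℝ) / L n))
          ((L n)⁻¹ * g ((i : ℝ) * K / L n, (x : ℝ) / L n))
        rwa [sub_add_cancel] at this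
      rw [add_div]
      linarith
    have hpq : ∀ i c : ℤ, ∀ x ∈ Finset.Ico (c * l) (c * l + l),
        |p n i x - (L n)⁻¹ * g ((i : ℝ) * K / L n, (c : ℝ) * l / L n)| ≤ 2 * η / L n := by
      intro i c x hx
      rw [Finset.mem_Ico] at hx
      have h5 := hp n i x
      have hx1 : (c : ℝ) * l ≤ x := by exact_mod_cast hx.1
      have hx2 : (x : ℝ) < c * l + l := by exact_mod_cast hx.2
      have h6 : dist (((i : ℝ) * K / L n, (x : ℝ) / L n) : ℝ × ℝ)
          ((i : ℝ) * K / L n, (c : ℝ) * l / L n) < d := by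
        rw [Prod.dist_eq, dist_self, Real.dist_eq]
        refine max_lt hd ?_
        rw [← sub_div, abs_div, abs_of_pos hLn, abs_of_nonneg (by linarith)]
        refine lt_of_le_of_lt ?_ h2
        gcongr
        linarith
      have h7 := hdg h6
      rw [Real.dist_eq] at h7
      have h8 : |(L n)⁻¹ * g ((i : ℝ) * K / L n, (x : ℝ) / L n) -
          (L n)⁻¹ * g ((i : ℝ) * K / L n, (c : ℝ) * l / L n)| ≤ η / L n := by
        rw [← mul_sub, abs_mul, abs_of_pos (inv_pos.2 hLn), div_eq_inv_mul η (L n)]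
        exact mul_le_mul_of_nonneg_left h7.le (inv_pos.2 hLn).le
      have h9 := abs_sub_le (p n i x) ((L n)⁻¹ * g ((i : ℝ) * K / L n, (x : ℝ) / L n))
        ((L n)⁻¹ * g ((i : ℝ) * K / L n, (c : ℝ) * l / L n))
      have h10 : δ n / L n ≤ η / L n := by gcongr
      have h11 : 2 * η / L n = η / L n + η / L n := by ring
      linarith
    have hb := loc_bound (μ := μ) D hDm hDb l hw hε0.le hR (p n)
      (fun i c => (L n)⁻¹ * g ((i : ℝ) * K / L n, (c : ℝ) * l / L n)) hpP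
      (fun i c => (hgabs _).trans hGP) hpq (I n) (C n) (w / (K * l) * ∫ z, g z ^ 2)
    refine lt_of_le_of_lt hb ?_
    have hterm1 := term1_le (nI := (I n).card) (nC := (C n).card) (lA := l * A) hLn hM hG0 he
      (hIM n) (Nat.cast_nonneg _) (hCM n) hη
    have hterm2 := term2_le (nI := (I n).card) (nC := (C n).card) (r := 2 * R + 1)
      (B := ((l * A) ^ 2) ^ 2) hLn hM hG0 he (by positivity) (by positivity)
      (hIM n) (Nat.cast_nonneg _) (hCM n) hθ hε h3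
    linarith
  rw [Metric.tendsto_nhds]
  intro e he
  filter_upwards [key e he] with n hn
  rw [Real.dist_eq, sub_zero, abs_of_nonneg (integral_nonneg fun _ => abs_nonneg _)]
  exact hn

end Vale.Agent.P153.CLT
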