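import Mathlib.MeasureTheory.Function.ConditionalExpectation.PullOut
import Mathlib.MeasureTheory.Function.ConditionalExpectation.Real
import Mathlib.Analysis.SpecialFunctions.Complex.Circle
import Mathlib.MeasureTheory.Integral.Bochner.Basic

/-!
# Characteristic function form of the martingale central limit theorem

`Y j` is `F (j+1)`-measurable, `V j` is `F j`-measurable and nonnegative.  If the conditional
characteristic functions of `Y j` are close to `exp (-V j / 2)` and `∑ V j` is close to `s`,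
then the characteristic function of `∑ Y j` is close to `exp (-s / 2)`.
-/

namespace Vale.Agent.P153.CLT

open MeasureTheory Filter Finset
open scoped Topology

variable {Ω : Type*} {mΩ : MeasurableSpace Ω} {μ : Measure Ω}

/-- `exp (i x)`. -/
noncomputable def ei (x : ℝ) : ℂ := Complex.exp (Complex.I * x)

lemma norm_ei (x : ℝ) : ‖ei x‖ = 1 := by
  unfold ei
  rw [mul_comm]
  exact Complex.norm_exp_ofReal_mul_I x

lemma ei_add (x y : ℝ) : ei (x + y) = ei x * ei y := by
  unfold ei
  rw [← Complex.exp_add]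
  push_cast
  ring_nf

lemma ei_zero : ei 0 = 1 := by simp [ei]

lemma continuous_ei : Continuous ei := by
  unfold ei
  fun_prop

lemma measurable_ei : Measurable ei := continuous_ei.measurable

lemma integrable_of_norm_le [IsFiniteMeasure μ] {E : Type*} [NormedAddCommGroup E] {f : Ω → E}
    (hf : AEStronglyMeasurable f μ) (C : ℝ) (h : ∀ ω, ‖f ω‖ ≤ C) : Integrable f μ :=
  Integrable.of_bound hf C (ae_of_all _ h)

/-- Pulling a bounded measurable factor out of an integral. -/
lemma integral_mul_condExp [IsProbabilityMeasure μ] {m : MeasurableSpace Ω} (hm : m ≤ mΩ)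
    {Z f : Ω → ℂ} (hZ : StronglyMeasurable[m] Z) (C : ℝ) (hZC : ∀ ω, ‖Z ω‖ ≤ C)
    (hf : Integrable f μ) :
    ∫ ω, Z ω * f ω ∂μ = ∫ ω, Z ω * (μ[f | m]) ω ∂μ := by
  have h1 := condExp_stronglyMeasurable_bilin_of_bound (μ := μ) (ContinuousLinearMap.mul ℝ ℂ)
    hm hZ hf C (ae_of_all _ hZC)
  simp only [ContinuousLinearMap.mul_apply'] at h1
  rw [← integral_condExp hm (f := fun ω => Z ω * f ω)]
  exact integral_congr_ae h1

/-- One step. -/
lemma step [IsProbabilityMeasure μ] {m : MeasurableSpace Ω} (hm : m ≤ mΩ)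
    {Z : Ω → ℂ} (hZ : StronglyMeasurable[m] Z) (C : ℝ) (hZC : ∀ ω, ‖Z ω‖ ≤ C)
    {Y : Ω → ℝ} (hY : Measurable[mΩ] Y) {e : Ω → ℂ} (he : StronglyMeasurable[m] e)
    (he1 : ∀ ω, ‖e ω‖ ≤ 1) :
    ‖∫ ω, Z ω * ei (Y ω) ∂μ - ∫ ω, Z ω * e ω ∂μ‖ ≤
      C * ∫ ω, ‖(μ[fun ω => ei (Y ω) | m]) ω - e ω‖ ∂μ := by
  have hC : 0 ≤ C := by
    obtain ⟨ω⟩ : Nonempty Ω := by
      by_contra h
      rw [not_nonempty_iff] at h
      have h1 := measure_univ (μ := μ)
      rw [Set.univ_eq_empty_iff.2 h, measure_empty] at h1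
      exact zero_ne_one h1
    exact (norm_nonneg _).trans (hZC ω)
  have hYi : Integrable (fun ω => ei (Y ω)) μ :=
    integrable_of_norm_le (measurable_ei.comp hY).aestronglyMeasurable 1
      (fun ω => (norm_ei _).le)
  have hei : Integrable e μ :=
    integrable_of_norm_le (he.mono hm).aestronglyMeasurable 1 he1
  have hZb : Integrable Z μ := integrable_of_norm_le (hZ.mono hm).aestronglyMeasurable C hZC
  have hc : Integrable (μ[fun ω => ei (Y ω) | m]) μ := integrable_condExp
  rw [integral_mul_condExp hm hZ C hZC hYi]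
  have i1 : Integrable (fun ω => Z ω * (μ[fun ω => ei (Y ω) | m]) ω) μ :=
    hc.bdd_mul (hZ.mono hm).aestronglyMeasurable (ae_of_all _ hZC)
  have i2 : Integrable (fun ω => Z ω * e ω) μ :=
    hei.bdd_mul (hZ.mono hm).aestronglyMeasurable (ae_of_all _ hZC)
  rw [← integral_sub i1 i2]
  refine (norm_integral_le_integral_norm _).trans ?_
  rw [← integral_const_mul]
  refine integral_mono_of_nonneg (ae_of_all _ fun ω => norm_nonneg _)
    ((hc.sub hei).norm.const_mul C) (ae_of_all _ fun ω => ?_)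
  simp only
  rw [← mul_sub, norm_mul]
  exact mul_le_mul_of_nonneg_right (hZC ω) (norm_nonneg _)

/-- The exponential weights `exp (i S_j + W_j / 2)`. -/
noncomputable def zz (Y V : ℕ → Ω → ℝ) (j : ℕ) (ω : Ω) : ℂ :=
  ei (∑ i ∈ range j, Y i ω) * ((Real.exp ((∑ i ∈ range j, V i ω) / 2) : ℝ) : ℂ)

lemma zz_zero (Y V : ℕ → Ω → ℝ) (ω : Ω) : zz Y V 0 ω = 1 := by simp [zz, ei_zero]

/-- The case of bounded total conditional variance. -/
lemma mart_bdd [IsProbabilityMeasure μ] (F : ℕ → MeasurableSpace Ω) (hF : ∀ j, F j ≤ mΩ)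
    (hmono : Monotone F) (Y V : ℕ → Ω → ℝ) (hY : ∀ j, Measurable[F (j + 1)] (Y j))
    (hV : ∀ j, Measurable[F j] (V j)) (hV0 : ∀ j ω, 0 ≤ V j ω) (B : ℝ) (J : ℕ)
    (hB : ∀ ω, ∑ i ∈ range J, V i ω ≤ B) :
    ‖∫ ω, zz Y V J ω ∂μ - 1‖ ≤ Real.exp (B / 2) *
      ∑ j ∈ range J, ∫ ω, ‖(μ[fun ω => ei (Y j ω) | F j]) ω -
        ((Real.exp (-(V j ω) / 2) : ℝ) : ℂ)‖ ∂μ := by
  have key : ∀ j, j ≤ J → ‖∫ ω, zz Y V j ω ∂μ - 1‖ ≤ Real.exp (B / 2) *
      ∑ j ∈ range j, ∫ ω, ‖(μ[fun ω => ei (Y j ω) | F j]) ω -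
        ((Real.exp (-(V j ω) / 2) : ℝ) : ℂ)‖ ∂μ := by
    intro j
    induction j with
    | zero =>
      intro _
      simp [zz_zero]
    | succ j ih =>
      intro hj
      have ih := ih (by omega)
      -- the predictable factor
      set Z : Ω → ℂ := fun ω => ei (∑ i ∈ range j, Y i ω) *
        ((Real.exp ((∑ i ∈ range (j + 1), V i ω) / 2) : ℝ) : ℂ) with hZdef
      have hSm : Measurable[F j] (fun ω => ∑ i ∈ range j, Y i ω) := by
        refine Finset.measurable_sum _ fun i hi => ?_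
        exact (hY i).mono (hmono (by have := mem_range.1 hi; omega)) le_rfl
      have hWm : Measurable[F j] (fun ω => ∑ i ∈ range (j + 1), V i ω) := by
        refine Finset.measurable_sum _ fun i hi => ?_
        exact (hV i).mono (hmono (by have := mem_range.1 hi; omega)) le_rfl
      have hZm : Measurable[F j] Z := by
        refine Measurable.mul ?_ ?_
        · exact measurable_ei.comp hSm
        · exact Complex.measurable_ofReal.comp (Real.measurable_exp.comp (hWm.div_const 2))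
      have hZs : StronglyMeasurable[F j] Z := hZm.stronglyMeasurable
      have hWB : ∀ ω, ∑ i ∈ range (j + 1), V i ω ≤ B := by
        intro ω
        refine le_trans ?_ (hB ω)
        exact Finset.sum_le_sum_of_subset_of_nonneg
          (Finset.range_subset_range.2 (by omega)) (fun i _ _ => hV0 i ω)
      have hZC : ∀ ω, ‖Z ω‖ ≤ Real.exp (B / 2) := by
        intro ω
        simp only [hZdef]
        rw [norm_mul, norm_ei, one_mul, Complex.norm_real, Real.norm_eq_abs,
          abs_of_pos (Real.exp_pos _)]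
        exact Real.exp_le_exp.2 (by have := hWB ω; linarith)
      have hst := step (μ := μ) (hF j) hZs (Real.exp (B / 2)) hZC ((hY j).mono (hF (j + 1)) le_rfl)
        (e := fun ω => ((Real.exp (-(V j ω) / 2) : ℝ) : ℂ))
        ((Complex.measurable_ofReal.comp (Real.measurable_exp.comp
          ((hV j).neg.div_const 2))).stronglyMeasurable)
        (fun ω => by
          rw [Complex.norm_real, Real.norm_eq_abs, abs_of_pos (Real.exp_pos _)]
          rw [Real.exp_le_one_iff]
          have := hV0 j ω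
          linarith)
      have e1 : ∀ ω, Z ω * ei (Y j ω) = zz Y V (j + 1) ω := by
        intro ω
        simp only [hZdef, zz]
        rw [Finset.sum_range_succ (fun i => Y i ω), ei_add]
        ring
      have e2 : ∀ ω, Z ω * ((Real.exp (-(V j ω) / 2) : ℝ) : ℂ) = zz Y V j ω := by
        intro ω
        simp only [hZdef, zz]
        rw [Finset.sum_range_succ (fun i => V i ω), mul_assoc, ← Complex.ofReal_mul,
          ← Real.exp_add]
        congr 3
        ring
      simp only [e1, e2] at hst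
      rw [Finset.sum_range_succ, mul_add]
      calc ‖∫ ω, zz Y V (j + 1) ω ∂μ - 1‖
          = ‖(∫ ω, zz Y V j ω ∂μ - 1) + (∫ ω, zz Y V (j + 1) ω ∂μ - ∫ ω, zz Y V j ω ∂μ)‖ := by
            congr 1
            ring
        _ ≤ _ := (norm_add_le _ _).trans (add_le_add ih hst)
  exact key J le_rfl

lemma abs_one_sub_exp_half_le {x : ℝ} (hx : x ≤ 1) : |1 - Real.exp (x / 2)| ≤ |x| := by
  rcases le_total x 0 with h | h
  · have h1 : Real.exp (x / 2) ≤ 1 := Real.exp_le_one_iff.2 (by linarith)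
    have h2 := Real.add_one_le_exp (x / 2)
    rw [abs_of_nonneg (by linarith), abs_of_nonpos h]
    linarith
  · have h1 : 1 ≤ Real.exp (x / 2) := Real.one_le_exp (by linarith)
    have h2 := Real.add_one_le_exp (-(x / 2))
    have h3 : Real.exp (x / 2) * Real.exp (-(x / 2)) = 1 := by
      rw [← Real.exp_add]
      simp
    have h4 : Real.exp (x / 2) ≤ 2 := by
      nlinarith [Real.exp_pos (x / 2)]
    have h5 : Real.exp (x / 2) - 1 ≤ x := by
      nlinarith [Real.exp_pos (x / 2)]
    rw [abs_of_nonpos (by linarith), abs_of_nonneg h]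
    linarith

/-- Martingale central limit theorem in characteristic function form, with explicit error. -/
theorem mart_clt [IsProbabilityMeasure μ] (F : ℕ → MeasurableSpace Ω) (hF : ∀ j, F j ≤ mΩ)
    (hmono : Monotone F) (Y V : ℕ → Ω → ℝ) (hY : ∀ j, Measurable[F (j + 1)] (Y j))
    (hV : ∀ j, Measurable[F j] (V j)) (hV0 : ∀ j ω, 0 ≤ V j ω)
    (hVi : ∀ j, Integrable (V j) μ) (s : ℝ) (hs : 0 ≤ s) (J : ℕ) :
    ‖∫ ω, ei (∑ j ∈ range J, Y j ω) ∂μ - ((Real.exp (-s / 2) : ℝ) : ℂ)‖ ≤
      2 * ∑ j ∈ range J, ∫ ω, ‖(μ[fun ω => ei (Y j ω) | F j]) ω -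
        ((Real.exp (-(V j ω) / 2) : ℝ) : ℂ)‖ ∂μ +
      (s + 4) * ∫ ω, |∑ j ∈ range J, V j ω - s| ∂μ := by
  classical
  set A : ℕ → Set Ω := fun j => {ω | ∑ i ∈ range (j + 1), V i ω ≤ s + 1} with hA
  have hAm : ∀ j, MeasurableSet[F j] (A j) := by
    intro j
    have hWm : Measurable[F j] (fun ω => ∑ i ∈ range (j + 1), V i ω) := by
      refine Finset.measurable_sum _ fun i hi => ?_
      exact (hV i).mono (hmono (by have := mem_range.1 hi; omega)) le_rfl
    exact hWm measurableSet_Iic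
  set Y' : ℕ → Ω → ℝ := fun j => (A j).indicator (Y j) with hY'
  set V' : ℕ → Ω → ℝ := fun j => (A j).indicator (V j) with hV'
  have hY'm : ∀ j, Measurable[F (j + 1)] (Y' j) := fun j =>
    (hY j).indicator (hmono (Nat.le_succ j) _ (hAm j))
  have hV'm : ∀ j, Measurable[F j] (V' j) := fun j => (hV j).indicator (hAm j)
  have hV'0 : ∀ j ω, 0 ≤ V' j ω := fun j ω => Set.indicator_nonneg (fun ω _ => hV0 j ω) ω
  have hV'le : ∀ j ω, V' j ω ≤ V j ω := fun j ω => Set.indicator_le_self' (fun ω _ => hV0 j ω) ω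
  -- total truncated variance
  have hB : ∀ ω j, ∑ i ∈ range j, V' i ω ≤ s + 1 := by
    intro ω j
    induction j with
    | zero => simp; linarith
    | succ j ih =>
      by_cases h : ω ∈ A j
      · refine le_trans (Finset.sum_le_sum fun i _ => hV'le i ω) ?_
        exact h
      · rw [Finset.sum_range_succ]
        have : V' j ω = 0 := Set.indicator_of_notMem h _
        linarith
  have h1 := mart_bdd (μ := μ) F hF hmono Y' V' hY'm hV'm hV'0 (s + 1) J (fun ω => hB ω J)
  -- comparison of the conditional errors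
  have hcomp : ∀ j, ∫ ω, ‖(μ[fun ω => ei (Y' j ω) | F j]) ω -
        ((Real.exp (-(V' j ω) / 2) : ℝ) : ℂ)‖ ∂μ ≤
      ∫ ω, ‖(μ[fun ω => ei (Y j ω) | F j]) ω - ((Real.exp (-(V j ω) / 2) : ℝ) : ℂ)‖ ∂μ := by
    intro j
    have hYi : Integrable (fun ω => ei (Y j ω)) μ :=
      integrable_of_norm_le (measurable_ei.comp ((hY j).mono (hF _) le_rfl)).aestronglyMeasurable
        1 (fun ω => (norm_ei _).le)
    have e0 : (fun ω => ei (Y' j ω)) =
        (fun ω => (A j).indicator (fun _ => (1 : ℂ)) ω * ei (Y j ω) +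
          (A j)ᶜ.indicator (fun _ => (1 : ℂ)) ω) := by
      funext ω
      by_cases h : ω ∈ A j
      · simp [hY', h]
      · simp [hY', h, ei_zero]
    have hind : StronglyMeasurable[F j] ((A j).indicator (fun _ => (1 : ℂ))) :=
      stronglyMeasurable_const.indicator (hAm j)
    have hindc : StronglyMeasurable[F j] ((A j)ᶜ.indicator (fun _ => (1 : ℂ))) :=
      stronglyMeasurable_const.indicator (hAm j).compl
    have hindb : ∀ ω, ‖(A j).indicator (fun _ => (1 : ℂ)) ω‖ ≤ 1 := by
      intro ω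
      by_cases h : ω ∈ A j <;> simp [h]
    have hindcb : ∀ ω, ‖(A j)ᶜ.indicator (fun _ => (1 : ℂ)) ω‖ ≤ 1 := by
      intro ω
      by_cases h : ω ∈ A j <;> simp [h]
    have hci : Integrable ((A j)ᶜ.indicator (fun _ => (1 : ℂ))) μ :=
      integrable_of_norm_le (hindc.mono (hF j)).aestronglyMeasurable 1 hindcb
    have hpi : Integrable (fun ω => (A j).indicator (fun _ => (1 : ℂ)) ω * ei (Y j ω)) μ :=
      hYi.bdd_mul (hind.mono (hF j)).aestronglyMeasurable (ae_of_all _ hindb)
    have c1 : μ[fun ω => ei (Y' j ω) | F j] =ᵐ[μ] fun ω =>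
        (A j).indicator (fun _ => (1 : ℂ)) ω * (μ[fun ω => ei (Y j ω) | F j]) ω +
          (A j)ᶜ.indicator (fun _ => (1 : ℂ)) ω := by
      rw [e0]
      have a1 := condExp_add hpi hci (F j)
      have a2 := condExp_stronglyMeasurable_bilin_of_bound (μ := μ) (ContinuousLinearMap.mul ℝ ℂ)
        (hF j) hind hYi 1 (ae_of_all _ hindb)
      simp only [ContinuousLinearMap.mul_apply'] at a2
      have a3 := condExp_of_stronglyMeasurable (hF j) hindc hci
      filter_upwards [a1, a2] with ω b1 b2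
      have b1' : (μ[fun ω => (A j).indicator (fun _ => (1 : ℂ)) ω * ei (Y j ω) +
          (A j)ᶜ.indicator (fun _ => (1 : ℂ)) ω | F j]) ω =
          (μ[fun ω => (A j).indicator (fun _ => (1 : ℂ)) ω * ei (Y j ω) | F j]) ω +
          (μ[(A j)ᶜ.indicator (fun _ => (1 : ℂ)) | F j]) ω := b1
      rw [b1', b2, a3]
    have hm1 : Integrable (fun ω => ‖(μ[fun ω => ei (Y j ω) | F j]) ω -
        ((Real.exp (-(V j ω) / 2) : ℝ) : ℂ)‖) μ := by
      refine (integrable_condExp.sub ?_).norm
      refine integrable_of_norm_le (E := ℂ) ?_ 1 ?_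
      · exact (Complex.measurable_ofReal.comp (Real.measurable_exp.comp
          (((hV j).mono (hF j) le_rfl).neg.div_const 2))).aestronglyMeasurable
      · intro ω
        rw [Complex.norm_real, Real.norm_eq_abs, abs_of_pos (Real.exp_pos _),
          Real.exp_le_one_iff]
        have := hV0 j ω
        linarith
    refine integral_mono_of_nonneg (ae_of_all _ fun ω => norm_nonneg _) hm1 ?_
    filter_upwards [c1] with ω hc
    rw [hc]
    by_cases h : ω ∈ A j
    · simp [hV', h]
    · simp [hV', h]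
  have hsum : ∑ j ∈ range J, ∫ ω, ‖(μ[fun ω => ei (Y' j ω) | F j]) ω -
        ((Real.exp (-(V' j ω) / 2) : ℝ) : ℂ)‖ ∂μ ≤
      ∑ j ∈ range J, ∫ ω, ‖(μ[fun ω => ei (Y j ω) | F j]) ω -
        ((Real.exp (-(V j ω) / 2) : ℝ) : ℂ)‖ ∂μ := Finset.sum_le_sum fun j _ => hcomp j
  set E1 := ∑ j ∈ range J, ∫ ω, ‖(μ[fun ω => ei (Y j ω) | F j]) ω -
        ((Real.exp (-(V j ω) / 2) : ℝ) : ℂ)‖ ∂μ with hE1
  have hE1' : 0 ≤ E1 := Finset.sum_nonneg fun j _ => integral_nonneg fun ω => norm_nonneg _
  -- measurability and integrability of totals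
  have hWm : Measurable[mΩ] (fun ω => ∑ i ∈ range J, V i ω) :=
    Finset.measurable_sum _ fun i _ => (hV i).mono (hF i) le_rfl
  have hSm : Measurable[mΩ] (fun ω => ∑ i ∈ range J, Y i ω) :=
    Finset.measurable_sum _ fun i _ => (hY i).mono (hF _) le_rfl
  have hS'm : Measurable[mΩ] (fun ω => ∑ i ∈ range J, Y' i ω) :=
    Finset.measurable_sum _ fun i _ => (hY'm i).mono (hF _) le_rfl
  have hW'm : Measurable[mΩ] (fun ω => ∑ i ∈ range J, V' i ω) :=
    Finset.measurable_sum _ fun i _ => (hV'm i).mono (hF i) le_rfl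
  have hWi : Integrable (fun ω => ∑ i ∈ range J, V i ω) μ :=
    integrable_finsetSum _ fun i _ => hVi i
  have hdi : Integrable (fun ω => |∑ i ∈ range J, V i ω - s|) μ :=
    (hWi.sub (integrable_const s)).abs
  -- pointwise comparison
  have hpt : ∀ ω, ‖ei (∑ i ∈ range J, Y i ω) - ei (∑ i ∈ range J, Y' i ω)‖ ≤
      2 * |∑ i ∈ range J, V i ω - s| := by
    intro ω
    by_cases h : ∑ i ∈ range J, V i ω ≤ s + 1
    · have : ∀ i ∈ range J, Y' i ω = Y i ω := by
        intro i hi
        have hmem : ω ∈ A i := by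
          show ∑ k ∈ range (i + 1), V k ω ≤ s + 1
          refine le_trans ?_ h
          exact Finset.sum_le_sum_of_subset_of_nonneg
            (Finset.range_subset_range.2 (by have := mem_range.1 hi; omega))
            (fun i _ _ => hV0 i ω)
        exact Set.indicator_of_mem hmem _
      rw [Finset.sum_congr rfl this]
      simp
    · push Not at h
      have h2 : 1 ≤ |∑ i ∈ range J, V i ω - s| := by
        rw [abs_of_pos (by linarith)]
        linarith
      calc _ ≤ ‖ei (∑ i ∈ range J, Y i ω)‖ + ‖ei (∑ i ∈ range J, Y' i ω)‖ := norm_sub_le _ _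
        _ = 2 := by rw [norm_ei, norm_ei]; norm_num
        _ ≤ _ := by linarith
  have hpt2 : ∀ ω, |∑ i ∈ range J, V' i ω - s| ≤ (s + 2) * |∑ i ∈ range J, V i ω - s| := by
    intro ω
    by_cases h : ∑ i ∈ range J, V i ω ≤ s + 1
    · have : ∀ i ∈ range J, V' i ω = V i ω := by
        intro i hi
        have hmem : ω ∈ A i := by
          show ∑ k ∈ range (i + 1), V k ω ≤ s + 1
          refine le_trans ?_ h
          exact Finset.sum_le_sum_of_subset_of_nonneg
            (Finset.range_subset_range.2 (by have := mem_range.1 hi; omega))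
            (fun i _ _ => hV0 i ω)
        exact Set.indicator_of_mem hmem _
      rw [Finset.sum_congr rfl this]
      have := abs_nonneg (∑ i ∈ range J, V i ω - s)
      nlinarith
    · push Not at h
      have h2 : 1 ≤ |∑ i ∈ range J, V i ω - s| := by
        rw [abs_of_pos (by linarith)]
        linarith
      have h3 : 0 ≤ ∑ i ∈ range J, V' i ω := Finset.sum_nonneg fun i _ => hV'0 i ω
      have h4 := hB ω J
      have h5 : |∑ i ∈ range J, V' i ω - s| ≤ s + 1 := by
        rw [abs_le]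
        constructor <;> linarith
      nlinarith
  -- first comparison
  have hS1 : Integrable (fun ω => ei (∑ i ∈ range J, Y i ω)) μ :=
    integrable_of_norm_le (measurable_ei.comp hSm).aestronglyMeasurable 1 fun ω => (norm_ei _).le
  have hS2 : Integrable (fun ω => ei (∑ i ∈ range J, Y' i ω)) μ :=
    integrable_of_norm_le (measurable_ei.comp hS'm).aestronglyMeasurable 1 fun ω => (norm_ei _).le
  have g1 : ‖∫ ω, ei (∑ i ∈ range J, Y i ω) ∂μ - ∫ ω, ei (∑ i ∈ range J, Y' i ω) ∂μ‖ ≤
      2 * ∫ ω, |∑ i ∈ range J, V i ω - s| ∂μ := by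
    rw [← integral_sub hS1 hS2, ← integral_const_mul]
    refine (norm_integral_le_integral_norm _).trans ?_
    exact integral_mono_of_nonneg (ae_of_all _ fun ω => norm_nonneg _) (hdi.const_mul 2)
      (ae_of_all _ hpt)
  -- second comparison
  have hzi : Integrable (fun ω => zz Y' V' J ω) μ := by
    refine integrable_of_norm_le (E := ℂ) ?_ (Real.exp ((s + 1) / 2)) ?_
    · refine Measurable.aestronglyMeasurable ?_
      exact (measurable_ei.comp hS'm).mul (Complex.measurable_ofReal.comp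
        (Real.measurable_exp.comp (hW'm.div_const 2)))
    · intro ω
      unfold zz
      rw [norm_mul, norm_ei, one_mul, Complex.norm_real, Real.norm_eq_abs,
          abs_of_pos (Real.exp_pos _)]
      exact Real.exp_le_exp.2 (by have := hB ω J; linarith)
  have hes : ‖((Real.exp (-s / 2) : ℝ) : ℂ)‖ = Real.exp (-s / 2) := by
    rw [Complex.norm_real, Real.norm_eq_abs, abs_of_pos (Real.exp_pos _)]
  have g2 : ‖∫ ω, ei (∑ i ∈ range J, Y' i ω) ∂μ -
      ((Real.exp (-s / 2) : ℝ) : ℂ) * ∫ ω, zz Y' V' J ω ∂μ‖ ≤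
      (s + 2) * ∫ ω, |∑ i ∈ range J, V i ω - s| ∂μ := by
    rw [← integral_const_mul, ← integral_sub hS2 (hzi.const_mul _), ← integral_const_mul]
    refine (norm_integral_le_integral_norm _).trans ?_
    refine integral_mono_of_nonneg (ae_of_all _ fun ω => norm_nonneg _) (hdi.const_mul _)
      (ae_of_all _ fun ω => ?_)
    have e1 : ei (∑ i ∈ range J, Y' i ω) - ((Real.exp (-s / 2) : ℝ) : ℂ) * zz Y' V' J ω =
        ei (∑ i ∈ range J, Y' i ω) *
          ((1 - Real.exp ((∑ i ∈ range J, V' i ω - s) / 2) : ℝ) : ℂ) := by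
      unfold zz
      have : Real.exp ((∑ i ∈ range J, V' i ω - s) / 2) =
          Real.exp (-s / 2) * Real.exp ((∑ i ∈ range J, V' i ω) / 2) := by
        rw [← Real.exp_add]
        congr 1
        ring
      rw [this]
      push_cast
      ring
    simp only
    rw [e1, norm_mul, norm_ei, one_mul, Complex.norm_real, Real.norm_eq_abs]
    refine (abs_one_sub_exp_half_le ?_).trans (hpt2 ω)
    have := hB ω J
    linarith
  have g3 : ‖((Real.exp (-s / 2) : ℝ) : ℂ) * ∫ ω, zz Y' V' J ω ∂μ -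
      ((Real.exp (-s / 2) : ℝ) : ℂ)‖ ≤ 2 * E1 := by
    have : ((Real.exp (-s / 2) : ℝ) : ℂ) * ∫ ω, zz Y' V' J ω ∂μ -
      ((Real.exp (-s / 2) : ℝ) : ℂ) =
      ((Real.exp (-s / 2) : ℝ) : ℂ) * (∫ ω, zz Y' V' J ω ∂μ - 1) := by ring
    rw [this, norm_mul, hes]
    calc Real.exp (-s / 2) * ‖∫ ω, zz Y' V' J ω ∂μ - 1‖
        ≤ Real.exp (-s / 2) * (Real.exp ((s + 1) / 2) * E1) := by
          refine mul_le_mul_of_nonneg_left ?_ (Real.exp_pos _).le
          exact h1.trans (mul_le_mul_of_nonneg_left hsum (Real.exp_pos _).le)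
      _ = Real.exp (1 / 2) * E1 := by
          rw [← mul_assoc, ← Real.exp_add]
          congr 2
          ring
      _ ≤ 2 * E1 := by
          refine mul_le_mul_of_nonneg_right ?_ hE1'
          have a1 := abs_one_sub_exp_half_le (le_refl (1 : ℝ))
          rw [abs_one] at a1
          have a2 := (abs_le.1 a1).1
          linarith
  calc ‖∫ ω, ei (∑ j ∈ range J, Y j ω) ∂μ - ((Real.exp (-s / 2) : ℝ) : ℂ)‖
      = ‖(∫ ω, ei (∑ i ∈ range J, Y i ω) ∂μ - ∫ ω, ei (∑ i ∈ range J, Y' i ω) ∂μ) +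
        ((∫ ω, ei (∑ i ∈ range J, Y' i ω) ∂μ -
          ((Real.exp (-s / 2) : ℝ) : ℂ) * ∫ ω, zz Y' V' J ω ∂μ) +
        (((Real.exp (-s / 2) : ℝ) : ℂ) * ∫ ω, zz Y' V' J ω ∂μ -
          ((Real.exp (-s / 2) : ℝ) : ℂ)))‖ := by
        congr 1
        ring
    _ ≤ 2 * ∫ ω, |∑ i ∈ range J, V i ω - s| ∂μ +
        ((s + 2) * ∫ ω, |∑ i ∈ range J, V i ω - s| ∂μ + 2 * E1) :=
        (norm_add_le _ _).trans (add_le_add g1 ((norm_add_le _ _).trans (add_le_add g2 g3)))
    _ = _ := by ring

end Vale.Agent.P153.CLT
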