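import Vale.Agent.P153.CLT.Newman

/-!
# The Newman property and its invariance under measurable shifts
-/

namespace Vale.Agent.P153.CLT

open MeasureTheory Filter Finset
open scoped Topology

variable {Ω : Type*} {mΩ : MeasurableSpace Ω} {μ : Measure Ω}
variable {ι : Type*}

/-- The Newman property of a family given a sigma-algebra. -/
structure NP (μ : Measure[mΩ] Ω) (m : MeasurableSpace Ω) (r : ι → Ω → ℝ) : Prop where
  ineq : ∀ (g : ι → ℝ) (s t : Finset ι), ∀ᵐ ω ∂μ,
    ‖(μ[fun ω => ei (lL g r s ω) * ei (lL g r t ω) | m]) ω -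
      (μ[fun ω => ei (lL g r s ω) | m]) ω * (μ[fun ω => ei (lL g r t ω) | m]) ω‖ ≤
      4 * ccov μ m (aL g r s) (aL g r t) ω
  nn : ∀ i j, ∀ᵐ ω ∂μ, 0 ≤ ccov μ m (r i) (r j) ω

lemma CondAssoc.np [Fintype ι] [IsProbabilityMeasure μ] {m : MeasurableSpace Ω}
    {r : ι → Ω → ℝ} (hr : ∀ i, BM (mΩ := mΩ) (r i)) (hA : CondAssoc μ m r) : NP μ m r where
  ineq := fun g s t => norm_ccov_ei_le m hr hA s t
  nn := by
    intro i j
    have h := hA (fun x => x i) (fun x => x j) (continuous_apply i) (continuous_apply j)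
      (fun x y h => h i) (fun x y h => h j)
    filter_upwards [h] with ω h1
    simp only [ccov]
    exact sub_nonneg.2 h1

/-- Linearity of the conditional expectation with a measurable shift. -/
lemma condExp_sub_meas [IsProbabilityMeasure μ] {m : MeasurableSpace Ω} (hm : m ≤ mΩ)
    {X c : Ω → ℝ} (hX : BM (mΩ := mΩ) X) (hc : Measurable[m] c) (hcb : BM (mΩ := mΩ) c) :
    ∀ᵐ ω ∂μ, (μ[fun ω => X ω - c ω | m]) ω = (μ[X | m]) ω - c ω := by
  have h1 := condExp_sub (μ := μ) hX.integrable hcb.integrable m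
  have h2 := condExp_of_stronglyMeasurable (μ := μ) hm hc.stronglyMeasurable hcb.integrable
  filter_upwards [h1] with ω a
  have a' : (μ[fun ω => X ω - c ω | m]) ω = (μ[X | m]) ω - (μ[c | m]) ω := a
  rw [a', h2]

/-- Pulling out a bounded measurable real factor. -/
lemma condExp_mul_meas [IsProbabilityMeasure μ] {m : MeasurableSpace Ω} 
    {X c : Ω → ℝ} (hX : BM (mΩ := mΩ) X) (hc : Measurable[m] c) (hcb : BM (mΩ := mΩ) c) :
    ∀ᵐ ω ∂μ, (μ[fun ω => c ω * X ω | m]) ω = c ω * (μ[X | m]) ω := by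
  have h1 := condExp_mul_of_stronglyMeasurable_left (μ := μ) hc.stronglyMeasurable
    ((hcb.mul hX).integrable (μ := μ)) (hX.integrable (μ := μ))
  filter_upwards [h1] with ω a
  exact a

lemma ccov_shift [IsProbabilityMeasure μ] {m : MeasurableSpace Ω} (hm : m ≤ mΩ)
    {X Y c d : Ω → ℝ} (hX : BM (mΩ := mΩ) X) (hY : BM (mΩ := mΩ) Y)
    (hc : Measurable[m] c) (hcb : BM (mΩ := mΩ) c) (hd : Measurable[m] d)
    (hdb : BM (mΩ := mΩ) d) :
    ∀ᵐ ω ∂μ, ccov μ m (fun ω => X ω - c ω) (fun ω => Y ω - d ω) ω = ccov μ m X Y ω := by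
  have h1 := condExp_sub_meas (μ := μ) hm hX hc hcb
  have h2 := condExp_sub_meas (μ := μ) hm hY hd hdb
  have h3 := condExp_mul_meas (μ := μ) hX hd hdb
  have h4 := condExp_mul_meas (μ := μ) hY hc hcb
  have h5 := condExp_of_stronglyMeasurable (μ := μ) hm (hc.mul hd).stronglyMeasurable
    ((hcb.mul hdb).integrable (μ := μ))
  have e : (fun ω => (X ω - c ω) * (Y ω - d ω)) =
      (((fun ω => X ω * Y ω) - (fun ω => d ω * X ω)) - (fun ω => c ω * Y ω)) +
        (fun ω => c ω * d ω) := by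
    funext ω
    simp only [Pi.add_apply, Pi.sub_apply]
    ring
  have i1 := (hX.mul hY).integrable (μ := μ)
  have i2 := (hdb.mul hX).integrable (μ := μ)
  have i3 := (hcb.mul hY).integrable (μ := μ)
  have i4 := (hcb.mul hdb).integrable (μ := μ)
  have k1 := condExp_add (μ := μ) ((i1.sub i2).sub i3) i4 m
  have k2 := condExp_sub (μ := μ) (i1.sub i2) i3 m
  have k3 := condExp_sub (μ := μ) i1 i2 m
  filter_upwards [h1, h2, h3, h4, k1, k2, k3] with ω h1 h2 h3 h4 k1 k2 k3
  simp only [ccov]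
  have k0 : (μ[fun ω => (X ω - c ω) * (Y ω - d ω) | m]) ω =
      (μ[fun ω => X ω * Y ω | m]) ω - d ω * (μ[X | m]) ω - c ω * (μ[Y | m]) ω + c ω * d ω := by
    rw [e, k1, Pi.add_apply, k2, Pi.sub_apply, k3, Pi.sub_apply, h3, h4]
    have : (μ[fun ω => c ω * d ω | m]) = fun ω => c ω * d ω := h5
    rw [this]
  rw [k0, h1, h2]
  ring

lemma lL_sub (g : ι → ℝ) (X c : ι → Ω → ℝ) (s : Finset ι) (ω : Ω) :
    lL g (fun i ω => X i ω - c i ω) s ω = lL g X s ω - lL g c s ω := by
  simp only [lL]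
  rw [← Finset.sum_sub_distrib]
  exact Finset.sum_congr rfl fun i _ => by ring

lemma aL_sub (g : ι → ℝ) (X c : ι → Ω → ℝ) (s : Finset ι) (ω : Ω) :
    aL g (fun i ω => X i ω - c i ω) s ω = aL g X s ω - aL g c s ω := by
  simp only [aL]
  rw [← Finset.sum_sub_distrib]
  exact Finset.sum_congr rfl fun i _ => by ring

lemma ei_sub (x y : ℝ) : ei (x - y) = ei (-y) * ei x := by
  rw [← ei_add]
  congr 1
  ring

/-- The Newman property is invariant under bounded measurable shifts. -/
theorem NP.sub [IsProbabilityMeasure μ] {m : MeasurableSpace Ω} (hm : m ≤ mΩ)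
    {X c : ι → Ω → ℝ} (hX : ∀ i, BM (mΩ := mΩ) (X i)) (hc : ∀ i, Measurable[m] (c i))
    (hcb : ∀ i, BM (mΩ := mΩ) (c i)) (h : NP μ m X) :
    NP μ m (fun i ω => X i ω - c i ω) where
  nn := by
    intro i j
    filter_upwards [ccov_shift (μ := μ) hm (hX i) (hX j) (hc i) (hcb i) (hc j) (hcb j),
      h.nn i j] with ω h1 h2
    have h1' : ccov μ m ((fun i ω => X i ω - c i ω) i) ((fun i ω => X i ω - c i ω) j) ω =
      ccov μ m (X i) (X j) ω := h1
    rw [h1']
    exact h2
  ineq := by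
    intro g s t
    have hLs := bm_lL (mΩ := mΩ) (g := g) hX s
    have hLt := bm_lL (mΩ := mΩ) (g := g) hX t
    have hcs : Measurable[m] (lL g c s) := Finset.measurable_sum _ fun i _ => (hc i).const_mul _
    have hct : Measurable[m] (lL g c t) := Finset.measurable_sum _ fun i _ => (hc i).const_mul _
    have has : Measurable[m] (aL g c s) := Finset.measurable_sum _ fun i _ => (hc i).const_mul _
    have hat : Measurable[m] (aL g c t) := Finset.measurable_sum _ fun i _ => (hc i).const_mul _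
    have k1 := ccov_shift (μ := μ) hm (bm_aL (mΩ := mΩ) (g := g) hX s)
      (bm_aL (mΩ := mΩ) (g := g) hX t) has (bm_aL hcb s) hat (bm_aL hcb t)
    have es : aL g (fun i ω => X i ω - c i ω) s = fun ω => aL g X s ω - aL g c s ω :=
      funext fun ω => aL_sub g X c s ω
    have et : aL g (fun i ω => X i ω - c i ω) t = fun ω => aL g X t ω - aL g c t ω :=
      funext fun ω => aL_sub g X c t ω
    have i1 : Integrable (fun ω => ei (lL g X s ω)) μ := integrable_ei hLs.1
    have i2 : Integrable (fun ω => ei (lL g X t ω)) μ := integrable_ei hLt.1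
    have i3 : Integrable (fun ω => ei (lL g X s ω) * ei (lL g X t ω)) μ := by
      have : (fun ω => ei (lL g X s ω) * ei (lL g X t ω)) =
          fun ω => ei (lL g X s ω + lL g X t ω) := by
        funext ω
        rw [ei_add]
      rw [this]
      exact integrable_ei (hLs.1.add hLt.1)
    have z1 : StronglyMeasurable[m] (fun ω => ei (-lL g c s ω)) :=
      (measurable_ei.comp hcs.neg).stronglyMeasurable
    have z2 : StronglyMeasurable[m] (fun ω => ei (-lL g c t ω)) :=
      (measurable_ei.comp hct.neg).stronglyMeasurable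
    have z3 : StronglyMeasurable[m] (fun ω => ei (-lL g c s ω) * ei (-lL g c t ω)) := z1.mul z2
    have b1 := condExp_stronglyMeasurable_bilin_of_bound (μ := μ) (ContinuousLinearMap.mul ℝ ℂ)
      hm z1 i1 1 (ae_of_all _ fun ω => (norm_ei _).le)
    have b2 := condExp_stronglyMeasurable_bilin_of_bound (μ := μ) (ContinuousLinearMap.mul ℝ ℂ)
      hm z2 i2 1 (ae_of_all _ fun ω => (norm_ei _).le)
    have b3 := condExp_stronglyMeasurable_bilin_of_bound (μ := μ) (ContinuousLinearMap.mul ℝ ℂ)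
      hm z3 i3 1 (ae_of_all _ fun ω => by rw [norm_mul, norm_ei, norm_ei]; norm_num)
    simp only [ContinuousLinearMap.mul_apply'] at b1 b2 b3
    have e1 : (fun ω => ei (lL g (fun i ω => X i ω - c i ω) s ω)) =
        fun ω => ei (-lL g c s ω) * ei (lL g X s ω) := by
      funext ω
      rw [lL_sub, ei_sub]
    have e2 : (fun ω => ei (lL g (fun i ω => X i ω - c i ω) t ω)) =
        fun ω => ei (-lL g c t ω) * ei (lL g X t ω) := by
      funext ω
      rw [lL_sub, ei_sub]
    have e3 : (fun ω => ei (lL g (fun i ω => X i ω - c i ω) s ω) *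
        ei (lL g (fun i ω => X i ω - c i ω) t ω)) =
        fun ω => (ei (-lL g c s ω) * ei (-lL g c t ω)) * (ei (lL g X s ω) * ei (lL g X t ω)) := by
      funext ω
      rw [lL_sub, lL_sub, ei_sub, ei_sub]
      ring
    rw [e1, e2, e3, es, et]
    filter_upwards [k1, b1, b2, b3, h.ineq g s t] with ω k1 b1 b2 b3 hh
    rw [k1, b1, b2, b3]
    refine le_trans (le_of_eq ?_) hh
    have : ∀ a b A B C : ℂ, ‖a‖ = 1 → ‖b‖ = 1 → ‖a * b * A - a * B * (b * C)‖ = ‖A - B * C‖ := by
      intro a b A B C ha hb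
      have e : a * b * A - a * B * (b * C) = a * b * (A - B * C) := by ring
      rw [e, norm_mul, norm_mul, ha, hb]
      ring
    exact this _ _ _ _ _ (norm_ei _) (norm_ei _)

end Vale.Agent.P153.CLT
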