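import Vale.Agent.P153.GFF.Interface
import Vale.Agent.P153.CLT.Loc

/-!
# P153, block D3 for the plane measure

The hypotheses of `local_squares` for the vertical increments of the height over `K` double rows
under a measure `P` with `GFF.Plane P`, and the resulting limit of the sums of local squares.
-/

namespace Vale.Agent.P153.CLT

open MeasureTheory Filter Finset
open scoped Topology ENNReal

/-- Truncation to `[-A, A]`. -/
noncomputable def clamp (A x : ℝ) : ℝ := max (-A) (min A x)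

lemma clamp_abs {A : ℝ} (hA : 0 ≤ A) (x : ℝ) : |clamp A x| ≤ A := by
  unfold clamp
  rw [abs_le]
  exact ⟨le_max_left _ _, max_le (by linarith) (min_le_left _ _)⟩

lemma clamp_eq {A x : ℝ} (h : |x| ≤ A) : clamp A x = x := by
  unfold clamp
  rw [abs_le] at h
  rw [min_eq_right h.2, max_eq_right h.1]

lemma clamp_neg {A : ℝ} (hA : 0 ≤ A) (x : ℝ) : clamp A (-x) = -clamp A x := by
  unfold clamp
  rcases le_total x (-A) with h | h
  · rw [min_eq_left (by linarith : A ≤ -x), min_eq_right (by linarith : x ≤ A),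
      max_eq_right (by linarith : -A ≤ A), max_eq_left h, neg_neg]
  · rcases le_total x A with h' | h'
    · rw [min_eq_right (by linarith : -x ≤ A), min_eq_right h', max_eq_right (by linarith : -A ≤ -x),
        max_eq_right h]
    · rw [min_eq_right (by linarith : -x ≤ A), min_eq_left h', max_eq_left (by linarith : -x ≤ -A),
        max_eq_right (by linarith : -A ≤ A)]

lemma measurable_clamp (A : ℝ) : Measurable (clamp A) := by
  unfold clamp
  fun_prop

/-- Increment of the height over `K` double rows, at the site `x` of the double row `i K`. -/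
def Dp (K : ℕ) (i x : ℤ) (φ : ℤ × ℤ → ℤ) : ℝ :=
  ((φ (GFF.ev ((i + 1) * K) x) : ℤ) : ℝ) - ((φ (GFF.ev (i * K) x) : ℤ) : ℝ)

/-- The truncated increment. -/
noncomputable def Dc (K : ℕ) (i x : ℤ) (φ : ℤ × ℤ → ℤ) : ℝ := clamp (2 * K) (Dp K i x φ)

lemma measurable_coord (v : ℤ × ℤ) : Measurable fun φ : ℤ × ℤ → ℤ => ((φ v : ℤ) : ℝ) :=
  (measurable_of_countable (fun z : ℤ => (z : ℝ))).comp (measurable_pi_apply v)

lemma measurable_Dp (K : ℕ) (i x : ℤ) : Measurable (Dp K i x) :=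
  (measurable_coord _).sub (measurable_coord _)

lemma measurable_Dc (K : ℕ) (i x : ℤ) : Measurable (Dc K i x) :=
  (measurable_clamp _).comp (measurable_Dp K i x)

lemma abs_Dc (K : ℕ) (i x : ℤ) (φ : ℤ × ℤ → ℤ) : |Dc K i x φ| ≤ 2 * K :=
  clamp_abs (by positivity) _

/-- A Lipschitz height changes by at most two over a double row. -/
lemma step_two (φ : ℤ × ℤ → ℤ) (h : ∀ x y, GFF.Adj x y → |φ x - φ y| ≤ 1) (j x : ℤ) :
    |φ (GFF.ev (j + 1) x) - φ (GFF.ev j x)| ≤ 2 := by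
  have h1 := h (x - j - 1, 2 * j + 1) (GFF.ev j x) (by
    unfold GFF.Adj GFF.ev
    have : ((x - j - (x - j - 1), 2 * j - (2 * j + 1)) : ℤ × ℤ) = (1, -1) := by
      ext <;> simp
    rw [this]
    simp)
  have h2 := h (GFF.ev (j + 1) x) (x - j - 1, 2 * j + 1) (by
    unfold GFF.Adj GFF.ev
    have : ((x - j - 1 - (x - (j + 1)), 2 * j + 1 - 2 * (j + 1)) : ℤ × ℤ) = (0, -1) := by
      ext
      · change x - j - 1 - (x - (j + 1)) = 0
        ring
      · simp; ring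
    simp [this])
  rw [abs_le] at *
  constructor <;> linarith [h1.1, h1.2, h2.1, h2.2]

lemma step_K (φ : ℤ × ℤ → ℤ) (h : ∀ x y, GFF.Adj x y → |φ x - φ y| ≤ 1) (j x : ℤ) (K : ℕ) :
    |φ (GFF.ev (j + K) x) - φ (GFF.ev j x)| ≤ 2 * K := by
  induction K with
  | zero => simp
  | succ k ih =>
    have h1 := step_two φ h (j + k) x
    have e : (j + ((k + 1 : ℕ) : ℤ)) = j + k + 1 := by push_cast; ring
    rw [e]
    push_cast
    rw [abs_le] at *
    constructor <;> linarith [h1.1, h1.2, ih.1, ih.2]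

lemma Dc_eq (φ : ℤ × ℤ → ℤ) (h : ∀ x y, GFF.Adj x y → |φ x - φ y| ≤ 1) (K : ℕ) (i x : ℤ) :
    Dc K i x φ = Dp K i x φ := by
  refine clamp_eq ?_
  have h1 := step_K φ h (i * K) x K
  have e : i * K + K = (i + 1) * K := by ring
  rw [e] at h1
  unfold Dp
  exact_mod_cast h1

/-- Increments and translations. -/
lemma Dp_shift (K : ℕ) (i j x y : ℤ) (φ : ℤ × ℤ → ℤ) :
    Dp K (i + j) (x + y) φ = Dp K j x (GFF.shift (GFF.ev (i * K) y) φ) := by
  unfold Dp GFF.shift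
  have e1 : GFF.ev ((i + j + 1) * K) (x + y) = GFF.ev ((j + 1) * K) x + GFF.ev (i * K) y := by
    unfold GFF.ev
    ext
    · simp; ring
    · simp; ring
  have e2 : GFF.ev ((i + j) * K) (x + y) = GFF.ev (j * K) x + GFF.ev (i * K) y := by
    unfold GFF.ev
    ext
    · simp; ring
    · simp; ring
  rw [e1, e2]
  push_cast
  ring

lemma Dc_shift (K : ℕ) (i j x y : ℤ) (φ : ℤ × ℤ → ℤ) :
    Dc K (i + j) (x + y) φ = Dc K j x (GFF.shift (GFF.ev (i * K) y) φ) := by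
  unfold Dc
  rw [Dp_shift]

lemma blk_shift (K l : ℕ) (i j c d : ℤ) (φ : ℤ × ℤ → ℤ) :
    blk (Dc K) l (i + j) (c + d) φ =
      blk (Dc K) l j d (GFF.shift (GFF.ev (i * K) (c * l)) φ) := by
  unfold blk
  have e : Finset.Ico ((c + d) * (l : ℤ)) ((c + d) * l + l) =
      (Finset.Ico (d * (l : ℤ)) (d * l + l)).map (addRightEmbedding (c * (l : ℤ))) := by
    rw [Finset.map_add_right_Ico]
    congr 1 <;> ring
  rw [e, Finset.sum_map]
  refine Finset.sum_congr rfl fun x _ => ?_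
  rw [addRightEmbedding_apply, Dc_shift]

lemma measurable_shift (t : ℤ × ℤ) : Measurable (GFF.shift t) := by
  unfold GFF.shift
  fun_prop

lemma measurable_blk (K l : ℕ) (i c : ℤ) : Measurable (blk (Dc K) l i c) :=
  Finset.measurable_sum _ fun x _ => measurable_Dc K i x

lemma abs_blk (K l : ℕ) (i c : ℤ) (φ : ℤ × ℤ → ℤ) : |blk (Dc K) l i c φ| ≤ l * (2 * K) := by
  refine (Finset.abs_sum_le_sum_abs _ _).trans ?_
  refine (Finset.sum_le_sum fun x _ => abs_Dc K i x φ).trans ?_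
  rw [Finset.sum_const, nsmul_eq_mul, Int.card_Ico]
  simp

/-- The mean of the squared increment over a block of length `l`. -/
noncomputable def wKl (P : Measure (ℤ × ℤ → ℤ)) (K l : ℕ) : ℝ :=
  ∫ φ, (∑ x ∈ Finset.Ico (0 : ℤ) l, (((φ (GFF.ev K x) : ℤ) : ℝ) - ((φ (GFF.ev 0 x) : ℤ) : ℝ))) ^ 2 ∂P

variable {P : Measure (ℤ × ℤ → ℤ)}

lemma Plane.integral_shift (hP : GFF.Plane P) (t : ℤ × ℤ) (F : (ℤ × ℤ → ℤ) → ℝ)
    (hF : Measurable F) : ∫ φ, F (GFF.shift t φ) ∂P = ∫ φ, F φ ∂P := by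
  conv_rhs => rw [← hP.shift t]
  rw [integral_map (measurable_shift t).aemeasurable hF.aestronglyMeasurable]

lemma blk_ae (hP : GFF.Plane P) (K : ℕ) :
    ∀ᵐ φ ∂P, ∀ i x, Dc K i x φ = Dp K i x φ := by
  filter_upwards [hP.lip] with φ hφ i x
  exact Dc_eq φ hφ K i x

lemma plane_w (hP : GFF.Plane P) (K l : ℕ) (i c : ℤ) :
    ∫ φ, (blk (Dc K) l i c φ) ^ 2 ∂P = wKl P K l := by
  have h1 : ∀ φ, (blk (Dc K) l i c φ) ^ 2 =
      (fun ψ => (blk (Dc K) l 0 0 ψ) ^ 2) (GFF.shift (GFF.ev (i * K) (c * l)) φ) := by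
    intro φ
    have := blk_shift K l i 0 c 0 φ
    rw [add_zero, add_zero] at this
    simp only [this]
  simp_rw [h1]
  rw [Plane.integral_shift hP _ (fun ψ => (blk (Dc K) l 0 0 ψ) ^ 2)
    ((measurable_blk K l 0 0).pow_const 2)]
  unfold wKl
  refine integral_congr_ae ?_
  filter_upwards [blk_ae hP K] with φ hφ
  unfold blk
  simp only [hφ, zero_mul, zero_add]
  congr 1
  refine Finset.sum_congr rfl fun x _ => ?_
  unfold Dp
  simp

lemma plane_dec (hP : GFF.Plane P) (K l : ℕ) (hl : 0 < l) (ε : ℝ) (hε : 0 < ε) :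
    ∃ R : ℕ, ∀ i c c' : ℤ, (R : ℤ) ≤ |c - c'| →
      ∫ φ, (blk (Dc K) l i c φ) ^ 2 * (blk (Dc K) l i c' φ) ^ 2 ∂P ≤ wKl P K l ^ 2 + ε := by
  have := hP.prob
  set W : (ℤ × ℤ → ℤ) → ℝ := fun φ => (blk (Dc K) l 0 0 φ) ^ 2 with hW
  have hWm : Measurable W := (measurable_blk K l 0 0).pow_const 2
  have hWb : ∃ M, ∀ φ, |W φ| ≤ M := by
    refine ⟨(l * (2 * K)) ^ 2, fun φ => ?_⟩
    rw [hW]
    simp only
    rw [abs_pow]
    exact pow_le_pow_left₀ (abs_nonneg _) (abs_blk K l 0 0 φ) 2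
  set B : Finset (ℤ × ℤ) := (Finset.Ico (0 : ℤ) l).image (fun x => GFF.ev K x) ∪
    (Finset.Ico (0 : ℤ) l).image (fun x => GFF.ev 0 x) with hB
  have hWB : ∀ φ ψ : ℤ × ℤ → ℤ, (∀ x ∈ B, φ x = ψ x) → W φ = W ψ := by
    intro φ ψ h
    rw [hW]
    simp only
    congr 1
    unfold blk
    refine Finset.sum_congr rfl fun x hx => ?_
    have hx' : x ∈ Finset.Ico (0 : ℤ) l := by simpa using hx
    unfold Dc Dp
    have e1 : φ (GFF.ev ((0 + 1) * K) x) = ψ (GFF.ev ((0 + 1) * K) x) := by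
      refine h _ ?_
      rw [hB, Finset.mem_union]
      left
      rw [Finset.mem_image]
      exact ⟨x, hx', by simp⟩
    have e2 : φ (GFF.ev (0 * K) x) = ψ (GFF.ev (0 * K) x) := by
      refine h _ ?_
      rw [hB, Finset.mem_union]
      right
      rw [Finset.mem_image]
      exact ⟨x, hx', by simp⟩
    rw [e1, e2]
  have hWe : ∀ φ, W (-φ) = W φ := by
    intro φ
    have hDc : ∀ i x, Dc K i x (-φ) = -Dc K i x φ := by
      intro i x
      have hDp : Dp K i x (-φ) = -Dp K i x φ := by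
        unfold Dp
        simp only [Pi.neg_apply]
        push_cast
        ring
      unfold Dc
      rw [hDp]
      exact clamp_neg (by positivity) _
    rw [hW]
    simp only
    unfold blk
    simp only [hDc, Finset.sum_neg_distrib, neg_sq]
  have hmix := hP.mix B W W hWm hWm hWb hWb hWe hWe hWB hWB
  have hinj : Function.Injective fun d : ℤ => GFF.ev 0 (d * l) := by
    intro a b hab
    unfold GFF.ev at hab
    simp only [Prod.mk.injEq] at hab
    have h1 : a * (l : ℤ) = b * l := by linarith [hab.1]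
    exact mul_right_cancel₀ (by exact_mod_cast hl.ne') h1
  have h2 := hmix.comp hinj.tendsto_cofinite
  have hwW : ∫ φ, W φ ∂P = wKl P K l := plane_w hP K l 0 0
  rw [hwW] at h2
  have h3 : ∀ᶠ d : ℤ in cofinite,
      ∫ φ, W φ * W (GFF.shift (GFF.ev 0 (d * l)) φ) ∂P < wKl P K l * wKl P K l + ε :=
    h2.eventually (gt_mem_nhds (by linarith))
  rw [Filter.eventually_cofinite] at h3
  obtain ⟨R, hR⟩ := (h3.image fun d : ℤ => |d|).bddAbove
  refine ⟨(R + 1).toNat, fun i c c' hcc => ?_⟩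
  have h4 : R + 1 ≤ |c - c'| := (Int.self_le_toNat _).trans hcc
  set d : ℤ := c' - c with hd
  have h5 : ∫ φ, W φ * W (GFF.shift (GFF.ev 0 (d * l)) φ) ∂P < wKl P K l * wKl P K l + ε := by
    by_contra h6
    have h7 : |d| ≤ R := hR ⟨d, h6, rfl⟩
    rw [hd, abs_sub_comm] at h7
    linarith
  have h8 : ∀ φ, (blk (Dc K) l i c φ) ^ 2 * (blk (Dc K) l i c' φ) ^ 2 =
      (fun ψ => W ψ * W (GFF.shift (GFF.ev 0 (d * l)) ψ))
        (GFF.shift (GFF.ev (i * K) (c * l)) φ) := by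
    intro φ
    have e1 := blk_shift K l i 0 c 0 φ
    rw [add_zero, add_zero] at e1
    have e2 := blk_shift K l i 0 c d φ
    rw [add_zero, show c + d = c' by rw [hd]; ring] at e2
    have e3 := blk_shift K l 0 0 d 0 (GFF.shift (GFF.ev (i * K) (c * l)) φ)
    rw [add_zero, add_zero, zero_mul] at e3
    simp only [hW]
    rw [e1, e2, e3]
  simp_rw [h8]
  rw [Plane.integral_shift hP _ (fun ψ => W ψ * W (GFF.shift (GFF.ev 0 (d * l)) ψ))
    (hWm.mul (hWm.comp (measurable_shift _)))]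
  rw [sq]
  exact h5.le

/-- **Local squares under the plane measure.** -/
theorem devLim (hP : GFF.Plane P) (l K : ℕ) (hl : 0 < l) (hK : 0 < K)
    (g : ℝ × ℝ → ℝ) (hg : Continuous g) (hgc : HasCompactSupport g)
    (L : ℕ → ℝ) (hL0 : ∀ n, 0 < L n) (hL : Tendsto L atTop atTop)
    (I C : ℕ → Finset ℤ) {M : ℝ} (hIM : ∀ n, ((I n).card : ℝ) ≤ M * L n)
    (hCM : ∀ n, ((C n).card : ℝ) ≤ M * L n)
    (hI : ∀ n, ∀ i : ℤ, i ∉ I n → ∀ y : ℝ, g ((i : ℝ) * K / L n, y) = 0)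
    (hC : ∀ n, ∀ c : ℤ, c ∉ C n → ∀ t : ℝ, g (t, (c : ℝ) * l / L n) = 0)
    (p : ℕ → ℤ → ℤ → ℝ) (δ : ℕ → ℝ) (hδ : Tendsto δ atTop (𝓝 0))
    (hp : ∀ n, ∀ i x : ℤ, |p n i x - (L n)⁻¹ * g ((i : ℝ) * K / L n, (x : ℝ) / L n)| ≤
      δ n / L n) :
    Tendsto (fun n => ∫ φ, |∑ i ∈ I n, ∑ c ∈ C n,
      (∑ x ∈ Finset.Ico (c * l) (c * l + l), p n i x *
        (((φ (GFF.ev ((i + 1) * K) x) : ℤ) : ℝ) - ((φ (GFF.ev (i * K) x) : ℤ) : ℝ))) ^ 2 -
        wKl P K l / (K * l) * ∫ z, g z ^ 2| ∂P) atTop (𝓝 0) := by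
  have := hP.prob
  have h1 := local_squares (μ := P) (Dc K) (measurable_Dc K) (abs_Dc K) l K hl hK
    (plane_w hP K l) (plane_dec hP K l hl) g hg hgc L hL0 hL I C hIM hCM hI hC p δ hδ hp
  refine h1.congr fun n => ?_
  refine integral_congr_ae ?_
  filter_upwards [blk_ae hP K] with φ hφ
  simp only [hφ]
  rfl

end Vale.Agent.P153.CLT
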