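import Vale.Agent.P153.CLT.Final

/-!
# Conditional variances replaced by squares

Version of the central limit theorem where the hypothesis is on the sum of the squares of the
block sums instead of the sum of their conditional variances.
-/

namespace Vale.Agent.P153.CLT

open MeasureTheory Filter Finset
open scoped Topology ENNReal

variable {Ω : Type*} {mΩ : MeasurableSpace Ω} {μ : Measure Ω}

lemma BM.memLp [IsFiniteMeasure μ] {X : Ω → ℝ} (hX : BM (mΩ := mΩ) X) (p : ℝ≥0∞) :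
    MemLp X p μ := by
  obtain ⟨h1, C, hC⟩ := hX
  exact MemLp.of_bound h1.aestronglyMeasurable C (ae_of_all _ hC)

lemma int3 {f g h : Ω → ℝ} (hf : Integrable f μ) (hg : Integrable g μ) (hh : Integrable h μ)
    (c : ℝ) : ∫ ω, (f ω + c * g ω + h ω) ∂μ = ∫ ω, f ω ∂μ + c * ∫ ω, g ω ∂μ + ∫ ω, h ω ∂μ := by
  have h1 : ∫ ω, (f ω + c * g ω + h ω) ∂μ = ∫ ω, (f ω + c * g ω) ∂μ + ∫ ω, h ω ∂μ :=
    integral_add (hf.add (hg.const_mul c)) hh
  have h2 : ∫ ω, (f ω + c * g ω) ∂μ = ∫ ω, f ω ∂μ + ∫ ω, c * g ω ∂μ :=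
    integral_add hf (hg.const_mul c)
  rw [h1, h2, integral_const_mul]

/-- Orthogonality of the martingale `∑ (Q j - E[Q j | F j])`. -/
lemma mart_sq [IsProbabilityMeasure μ] (F : ℕ → MeasurableSpace Ω) (hF : ∀ j, F j ≤ mΩ)
    (hmono : Monotone F) (Q : ℕ → Ω → ℝ) (hQm : ∀ j, Measurable[F (j + 1)] (Q j))
    (hQ : ∀ j, BM (mΩ := mΩ) (Q j)) (J : ℕ) :
    MemLp (fun ω => ∑ j ∈ range J, (Q j ω - (μ[Q j | F j]) ω)) 2 μ ∧
    ∫ ω, (∑ j ∈ range J, (Q j ω - (μ[Q j | F j]) ω)) ^ 2 ∂μ ≤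
      ∑ j ∈ range J, ∫ ω, Q j ω ^ 2 ∂μ := by
  have hV2 : ∀ j, MemLp (μ[Q j | F j]) 2 μ := fun j => ((hQ j).memLp 2).condExp (by norm_num)
  have hD2 : ∀ j, MemLp (fun ω => Q j ω - (μ[Q j | F j]) ω) 2 μ := fun j =>
    ((hQ j).memLp 2).sub (hV2 j)
  have hDi : ∀ j, Integrable (fun ω => Q j ω - (μ[Q j | F j]) ω) μ := fun j =>
    (hD2 j).integrable (by norm_num)
  have hD0 : ∀ j, μ[fun ω => Q j ω - (μ[Q j | F j]) ω | F j] =ᵐ[μ] 0 := by
    intro j
    have h1 := condExp_sub (μ := μ) ((hQ j).integrable) (integrable_condExp (f := Q j) (m := F j)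
      (μ := μ)) (F j)
    have h2 := condExp_of_stronglyMeasurable (μ := μ) (hF j)
      (stronglyMeasurable_condExp (f := Q j) (m := F j) (μ := μ)) integrable_condExp
    have h3 : (fun ω => Q j ω - (μ[Q j | F j]) ω) = Q j - μ[Q j | F j] := rfl
    rw [h3]
    filter_upwards [h1] with ω a
    rw [a, Pi.sub_apply, h2]
    simp
  -- one term
  have hDsq : ∀ j, ∫ ω, (Q j ω - (μ[Q j | F j]) ω) ^ 2 ∂μ ≤ ∫ ω, Q j ω ^ 2 ∂μ := by
    intro j
    have i1 : Integrable (fun ω => Q j ω * (μ[Q j | F j]) ω) μ :=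
      ((hQ j).memLp 2).integrable_mul (hV2 j)
    have i2 : Integrable (fun ω => Q j ω ^ 2) μ := ((hQ j).memLp 2).integrable_sq
    have i3 : Integrable (fun ω => (μ[Q j | F j]) ω ^ 2) μ := (hV2 j).integrable_sq
    have e1 : ∫ ω, Q j ω * (μ[Q j | F j]) ω ∂μ = ∫ ω, (μ[Q j | F j]) ω ^ 2 ∂μ := by
      have h1 := condExp_mul_of_stronglyMeasurable_right (μ := μ)
        (stronglyMeasurable_condExp (f := Q j) (m := F j) (μ := μ)) i1 (hQ j).integrable
      rw [← integral_condExp (hF j) (f := fun ω => Q j ω * (μ[Q j | F j]) ω)]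
      refine integral_congr_ae ?_
      filter_upwards [h1] with ω a
      have a' : (μ[fun ω => Q j ω * (μ[Q j | F j]) ω | F j]) ω =
        (μ[Q j | F j]) ω * (μ[Q j | F j]) ω := a
      rw [a']
      ring
    have e2 : ∫ ω, (Q j ω - (μ[Q j | F j]) ω) ^ 2 ∂μ =
        ∫ ω, Q j ω ^ 2 ∂μ - ∫ ω, (μ[Q j | F j]) ω ^ 2 ∂μ := by
      have e3 : (fun ω => (Q j ω - (μ[Q j | F j]) ω) ^ 2) = fun ω =>
          Q j ω ^ 2 + (-2) * (Q j ω * (μ[Q j | F j]) ω) + (μ[Q j | F j]) ω ^ 2 := by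
        funext ω
        ring
      rw [e3, int3 i2 i1 i3, e1]
      ring
    rw [e2]
    have : 0 ≤ ∫ ω, (μ[Q j | F j]) ω ^ 2 ∂μ := integral_nonneg fun ω => sq_nonneg _
    linarith
  induction J with
  | zero => exact ⟨by simp, by simp⟩
  | succ J ih =>
    obtain ⟨ih1, ih2⟩ := ih
    simp only [Finset.sum_range_succ]
    refine ⟨ih1.add (hD2 J), ?_⟩
    set S : Ω → ℝ := fun ω => ∑ j ∈ range J, (Q j ω - (μ[Q j | F j]) ω) with hS
    have hSm : StronglyMeasurable[F J] S := by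
      refine Finset.stronglyMeasurable_fun_sum _ fun j hj => ?_
      have hj' := mem_range.1 hj
      exact (((hQm j).mono (hmono (by omega)) le_rfl).stronglyMeasurable).sub
        (stronglyMeasurable_condExp.mono (hmono (by omega)))
    have i1 : Integrable (fun ω => S ω * (Q J ω - (μ[Q J | F J]) ω)) μ :=
      ih1.integrable_mul (hD2 J)
    have e1 : ∫ ω, S ω * (Q J ω - (μ[Q J | F J]) ω) ∂μ = 0 := by
      have h1 := condExp_mul_of_stronglyMeasurable_left (μ := μ) hSm i1 (hDi J)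
      rw [← integral_condExp (hF J) (f := fun ω => S ω * (Q J ω - (μ[Q J | F J]) ω))]
      have h2 : μ[fun ω => S ω * (Q J ω - (μ[Q J | F J]) ω) | F J] =ᵐ[μ] 0 := by
        filter_upwards [h1, hD0 J] with ω a b
        have a' : (μ[fun ω => S ω * (Q J ω - (μ[Q J | F J]) ω) | F J]) ω =
          S ω * (μ[fun ω => Q J ω - (μ[Q J | F J]) ω | F J]) ω := a
        rw [a', b]
        simp
      rw [integral_congr_ae h2]
      simp
    have i2 : Integrable (fun ω => S ω ^ 2) μ := ih1.integrable_sq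
    have i3 : Integrable (fun ω => (Q J ω - (μ[Q J | F J]) ω) ^ 2) μ := (hD2 J).integrable_sq
    have e2 : (fun ω => (S ω + (Q J ω - (μ[Q J | F J]) ω)) ^ 2) = fun ω =>
        S ω ^ 2 + 2 * (S ω * (Q J ω - (μ[Q J | F J]) ω)) + (Q J ω - (μ[Q J | F J]) ω) ^ 2 := by
      funext ω
      ring
    have e3 : ∫ ω, (S ω + (Q J ω - (μ[Q J | F J]) ω)) ^ 2 ∂μ =
        ∫ ω, S ω ^ 2 ∂μ + ∫ ω, (Q J ω - (μ[Q J | F J]) ω) ^ 2 ∂μ := by
      rw [e2, int3 i2 i1 i3, e1]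
      ring
    rw [e3]
    exact add_le_add ih2 (hDsq J)

lemma integral_abs_le_sqrt [IsProbabilityMeasure μ] {f : Ω → ℝ} (hf : MemLp f 2 μ) {S : ℝ}
    (hS : ∫ ω, f ω ^ 2 ∂μ ≤ S) : ∫ ω, |f ω| ∂μ ≤ Real.sqrt S := by
  have hi : Integrable (fun ω => |f ω|) μ := (hf.integrable (by norm_num)).abs
  have hi2 : Integrable (fun ω => f ω ^ 2) μ := hf.integrable_sq
  have h0 : 0 ≤ ∫ ω, f ω ^ 2 ∂μ := integral_nonneg fun ω => sq_nonneg _
  apply Real.le_sqrt_of_sq_le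
  refine le_trans ?_ hS
  set a := ∫ ω, |f ω| ∂μ with ha
  have h1 : 0 ≤ ∫ ω, (|f ω| - a) ^ 2 ∂μ := integral_nonneg fun ω => sq_nonneg _
  have e : (fun ω => (|f ω| - a) ^ 2) = fun ω => f ω ^ 2 + (-(2 * a)) * |f ω| + a ^ 2 := by
    funext ω
    rw [← sq_abs (f ω)]
    ring
  rw [e, int3 hi2 hi (integrable_const _), ← ha] at h1
  simp only [integral_const, probReal_univ, smul_eq_mul, one_mul] at h1
  linarith

variable {ι β : Type*} [Fintype ι] [Fintype β] [DecidableEq β]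

/-- Central limit theorem for conditionally associated martingale differences, with squares of
the block sums. -/
theorem np_mart_clt_sq [IsProbabilityMeasure μ] (F : ℕ → MeasurableSpace Ω)
    (hF : ∀ j, F j ≤ mΩ) (hmono : Monotone F) (r : ℕ → ι → Ω → ℝ) (g : ℕ → ι → ℝ) (b : ι → β)
    (hrm : ∀ j i, Measurable[F (j + 1)] (r j i)) (C : ℝ) (hrb : ∀ j i ω, |r j i ω| ≤ C)
    (hA : ∀ j, NP μ (F j) (r j)) (hc : ∀ j i, μ[r j i | F j] =ᵐ[μ] 0)
    {η : ℝ} (hη : η ≤ 1) (hb : ∀ j c ω, |lL (g j) (r j) (sT b {c}) ω| ≤ η)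
    (s : ℝ) (hs : 0 ≤ s) (J : ℕ) :
    ‖∫ ω, ei (∑ j ∈ range J, ∑ i, g j i * r j i ω) ∂μ - ((Real.exp (-s / 2) : ℝ) : ℂ)‖ ≤
      2 * ∑ j ∈ range J, (4 * cross μ (g j) (r j) b univ +
        η * ∑ c : β, ∫ ω, lL (g j) (r j) (sT b {c}) ω ^ 2 ∂μ) +
      (s + 4) * (∫ ω, |∑ j ∈ range J, ∑ c : β, lL (g j) (r j) (sT b {c}) ω ^ 2 - s| ∂μ +
        Real.sqrt (∑ j ∈ range J, ∫ ω, (∑ c : β, lL (g j) (r j) (sT b {c}) ω ^ 2) ^ 2 ∂μ)) := by
  refine (np_mart_clt F hF hmono r g b hrm C hrb hA hc hη hb s hs J).trans ?_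
  refine add_le_add le_rfl (mul_le_mul_of_nonneg_left ?_ (by linarith))
  have hBM : ∀ j i, BM (mΩ := mΩ) (r j i) := fun j i =>
    ⟨(hrm j i).mono (hF _) le_rfl, C, hrb j i⟩
  have hLm : ∀ j c, Measurable[F (j + 1)] (lL (g j) (r j) (sT b {c})) := fun j c =>
    Finset.measurable_sum _ fun i _ => (hrm j i).const_mul _
  have hLB : ∀ j c, BM (mΩ := mΩ) (fun ω => lL (g j) (r j) (sT b {c}) ω ^ 2) := by
    intro j c
    have := (bm_lL (mΩ := mΩ) (g := g j) (hBM j) (sT b {c})).mul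
      (bm_lL (mΩ := mΩ) (g := g j) (hBM j) (sT b {c}))
    have e : (fun ω => lL (g j) (r j) (sT b {c}) ω ^ 2) =
        fun ω => lL (g j) (r j) (sT b {c}) ω * lL (g j) (r j) (sT b {c}) ω := by
      funext ω
      ring
    rw [e]
    exact this
  set Q : ℕ → Ω → ℝ := fun j ω => ∑ c : β, lL (g j) (r j) (sT b {c}) ω ^ 2 with hQ
  have hQB : ∀ j, BM (mΩ := mΩ) (Q j) := fun j => BM.sum _ fun c _ => hLB j c
  have hQm : ∀ j, Measurable[F (j + 1)] (Q j) := fun j =>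
    Finset.measurable_sum _ fun c _ => (hLm j c).pow_const 2
  obtain ⟨m1, m2⟩ := mart_sq (μ := μ) F hF hmono Q hQm hQB J
  have m3 := integral_abs_le_sqrt m1 m2
  -- the conditional block variance is the conditional expectation of `Q`
  have hv : ∀ j, bvar μ (F j) (g j) (r j) b =ᵐ[μ] μ[Q j | F j] := by
    intro j
    have e : Q j = ∑ c : β, fun ω => lL (g j) (r j) (sT b {c}) ω ^ 2 := by
      funext ω
      simp [hQ, Finset.sum_apply]
    have h1 := condExp_finsetSum (μ := μ) (s := (univ : Finset β))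
      (f := fun c => fun ω => lL (g j) (r j) (sT b {c}) ω ^ 2)
      (fun c _ => (hLB j c).integrable) (F j)
    have h2 : ∀ᵐ ω ∂μ, ∀ c : β, 0 ≤ (μ[fun ω => lL (g j) (r j) (sT b {c}) ω ^ 2 | F j]) ω :=
      ae_all_iff.2 fun c => condExp_nonneg (ae_of_all _ fun ω => sq_nonneg _)
    rw [e]
    filter_upwards [h1, h2] with ω a1 a2
    rw [a1, Finset.sum_apply]
    unfold bvar
    exact Finset.sum_congr rfl fun c _ => abs_of_nonneg (a2 c)
  have hvall : ∀ᵐ ω ∂μ, ∀ j, bvar μ (F j) (g j) (r j) b ω = (μ[Q j | F j]) ω :=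
    ae_all_iff.2 hv
  have hQi : Integrable (fun ω => |∑ j ∈ range J, Q j ω - s|) μ :=
    ((integrable_finsetSum _ fun j _ => (hQB j).integrable).sub (integrable_const s)).abs
  have hm1 : Integrable (fun ω => |∑ j ∈ range J, (Q j ω - (μ[Q j | F j]) ω)|) μ :=
    (m1.integrable (by norm_num)).abs
  calc ∫ ω, |∑ j ∈ range J, bvar μ (F j) (g j) (r j) b ω - s| ∂μ
      ≤ ∫ ω, (|∑ j ∈ range J, Q j ω - s| +
          |∑ j ∈ range J, (Q j ω - (μ[Q j | F j]) ω)|) ∂μ := by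
        refine integral_mono_of_nonneg (ae_of_all _ fun ω => abs_nonneg _) (hQi.add hm1) ?_
        filter_upwards [hvall] with ω h
        simp only [h]
        have e : ∑ j ∈ range J, (μ[Q j | F j]) ω - s = (∑ j ∈ range J, Q j ω - s) -
            ∑ j ∈ range J, (Q j ω - (μ[Q j | F j]) ω) := by
          rw [Finset.sum_sub_distrib]
          ring
        rw [e]
        exact abs_sub _ _
    _ = ∫ ω, |∑ j ∈ range J, Q j ω - s| ∂μ +
        ∫ ω, |∑ j ∈ range J, (Q j ω - (μ[Q j | F j]) ω)| ∂μ := integral_add hQi hm1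
    _ ≤ _ := add_le_add le_rfl m3

/-- The same theorem for conditionally associated families. -/
theorem assoc_mart_clt_sq [IsProbabilityMeasure μ] (F : ℕ → MeasurableSpace Ω)
    (hF : ∀ j, F j ≤ mΩ) (hmono : Monotone F) (r : ℕ → ι → Ω → ℝ) (g : ℕ → ι → ℝ) (b : ι → β)
    (hrm : ∀ j i, Measurable[F (j + 1)] (r j i)) (C : ℝ) (hrb : ∀ j i ω, |r j i ω| ≤ C)
    (hA : ∀ j, CondAssoc μ (F j) (r j)) (hc : ∀ j i, μ[r j i | F j] =ᵐ[μ] 0)
    {η : ℝ} (hη : η ≤ 1) (hb : ∀ j c ω, |lL (g j) (r j) (sT b {c}) ω| ≤ η)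
    (s : ℝ) (hs : 0 ≤ s) (J : ℕ) :
    ‖∫ ω, ei (∑ j ∈ range J, ∑ i, g j i * r j i ω) ∂μ - ((Real.exp (-s / 2) : ℝ) : ℂ)‖ ≤
      2 * ∑ j ∈ range J, (4 * cross μ (g j) (r j) b univ +
        η * ∑ c : β, ∫ ω, lL (g j) (r j) (sT b {c}) ω ^ 2 ∂μ) +
      (s + 4) * (∫ ω, |∑ j ∈ range J, ∑ c : β, lL (g j) (r j) (sT b {c}) ω ^ 2 - s| ∂μ +
        Real.sqrt (∑ j ∈ range J, ∫ ω, (∑ c : β, lL (g j) (r j) (sT b {c}) ω ^ 2) ^ 2 ∂μ)) :=
  np_mart_clt_sq F hF hmono r g b hrm C hrb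
    (fun j => (hA j).np fun i => ⟨(hrm j i).mono (hF _) le_rfl, C, hrb j i⟩) hc hη hb s hs J

end Vale.Agent.P153.CLT
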